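import Vale.Agent.P159.TM.H22.Mono
import Vale.Agent.P159.TM.H22.Base
import Vale.Agent.P159.TM.Spec.I
import Vale.Agent.P159.T1.H532.Bes

/-!
Row TOR: pinning lowers second moments, with masses, on any finite set of sites; the ring box and
the torus.
-/

open MeasureTheory Filter Topology

namespace Vale.Agent.P159.TM.H129

open Vale.Agent.P159 Vale.Agent.P159.H353 Vale.Agent.P159.R2.H254 Vale.Agent.P159.T1.H934
  Vale.Agent.P159.TM.H22

/-! ### the limit of large couplings (as in `T1/H910/PinMono`) -/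

lemma wI_diff {b : ℝ} (hb : 0 ≤ b) (n : ℕ) :
    b * (wI b 0 - wI b n) ≤ (n : ℝ) * (n + 1) * wI b 0 := by
  induction n with
  | zero => simp
  | succ n ih =>
    have h1 := T1.H532.wI_rec hb ((n : ℤ) + 1)
    have h2 : wI b ((n : ℤ) + 1 + 1) ≤ wI b ((n : ℤ) + 1) := wI_anti hb (by
      rw [abs_of_nonneg (by omega), abs_of_nonneg (by omega)]; omega)
    have h3 : wI b ((n : ℤ) + 1) ≤ wI b 0 := wI_anti hb (by
      rw [abs_zero]; exact abs_nonneg _)
    rw [show (n : ℤ) + 1 - 1 = n by ring] at h1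
    push_cast at h1 ⊢
    have h4 := mul_le_mul_of_nonneg_left h2 hb
    have h5 : ((n : ℝ) + 1) * wI b ((n : ℤ) + 1) ≤ ((n : ℝ) + 1) * wI b 0 :=
      mul_le_mul_of_nonneg_left h3 (by positivity)
    nlinarith

lemma wI_ratio (n : ℤ) : Tendsto (fun m : ℕ => wI m n / wI m 0) atTop (𝓝 1) := by
  have hz : ∀ m : ℕ, 0 < wI m 0 := fun m => wI_zero_pos (Nat.cast_nonneg m)
  have hn : ∀ m : ℕ, wI m n = wI m (n.natAbs : ℤ) := by
    intro m
    rcases Int.natAbs_eq n with h | h
    · rw [← h]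
    · conv_lhs => rw [h, wI_neg]
  have hlow : Tendsto (fun m : ℕ => 1 - (n.natAbs : ℝ) * (n.natAbs + 1) / (m : ℝ)) atTop (𝓝 1) := by
    have h1 := tendsto_const_div_atTop_nhds_zero_nat ((n.natAbs : ℝ) * (n.natAbs + 1))
    simpa using (tendsto_const_nhds (x := (1 : ℝ))).sub h1
  refine tendsto_of_tendsto_of_tendsto_of_le_of_le' hlow tendsto_const_nhds ?_ ?_
  · filter_upwards [eventually_gt_atTop 0] with m hm
    have hm' : (0 : ℝ) < m := by exact_mod_cast hm
    have h1 := wI_diff hm'.le n.natAbs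
    rw [le_div_iff₀ (hz m), hn m]
    have h2 : (n.natAbs : ℝ) * (n.natAbs + 1) / (m : ℝ) * wI m 0 =
        ((n.natAbs : ℝ) * (n.natAbs + 1) * wI m 0) / m := by ring
    have h3 : wI m 0 - wI m (n.natAbs : ℤ) ≤ ((n.natAbs : ℝ) * (n.natAbs + 1) * wI m 0) / m := by
      rw [le_div_iff₀ hm']
      linarith
    rw [sub_mul, one_mul, h2]
    linarith
  · filter_upwards with m
    rw [div_le_one (hz m)]
    exact wI_anti (Nat.cast_nonneg m) (by rw [abs_zero]; exact abs_nonneg _)

section pin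

variable {V E : Type} [Fintype V] [Fintype E]

/-- the differences and the heights on `X` -/
def dX (D : (V → ℤ) →+ (E → ℤ)) (X : Finset V) : (V → ℤ) →+ (E ⊕ X → ℤ) where
  toFun h := Sum.elim (D h) (fun p => h p)
  map_zero' := by funext x; rcases x with e | p <;> simp
  map_add' a b := by funext x; rcases x with e | p <;> simp

open Classical in
/-- the indicator of the heights which vanish on `X` -/
noncomputable def ind (X : Finset V) (h : V → ℤ) : ℝ := if ∀ x ∈ X, h x = 0 then 1 else 0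

lemma wm_zero (D : (V → ℤ) →+ (E → ℤ)) (X : Finset V) (J : E → ℝ) (m : V → ℝ) (h : V → ℤ) :
    wm (dX D X) (Sum.elim J 0) m h = ind X h * wm D J m h := by
  unfold wm W
  rw [Fintype.prod_sum_type]
  have e1 : ∀ p : X, wI (Sum.elim J (0 : X → ℝ) (Sum.inr p)) (dX D X h (Sum.inr p)) =
      if h p = 0 then 1 else 0 := fun p => wI_zero_left _
  have e2 : (∏ p : X, if h p = 0 then (1 : ℝ) else 0) = ind X h := by
    unfold ind
    by_cases h1 : ∀ x ∈ X, h x = 0
    · rw [if_pos h1]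
      exact Finset.prod_eq_one fun p _ => if_pos (h1 p p.2)
    · rw [if_neg h1]
      push Not at h1
      obtain ⟨x, hx, hx0⟩ := h1
      exact Finset.prod_eq_zero (Finset.mem_univ ⟨x, hx⟩) (if_neg hx0)
  simp only [e1, e2]
  show (∏ e : E, wI (J e) (D h e)) * ind X h * gm m h = _
  ring

/-- **Pinning lowers second moments.** -/
theorem pin_sq (D : (V → ℤ) →+ (E → ℤ)) (X : Finset V) {J : E → ℝ} (hJ : ∀ e, 0 ≤ J e)
    {m : V → ℝ} (hm : ∀ v, 0 < m v) (ρ : V → ℝ) :
    H22.MM (fun h => ind X h * wm D J m h) (fun h => lin ρ h ^ 2) * H22.MM (wm D J m) (fun _ => 1) ≤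
      H22.MM (wm D J m) (fun h => lin ρ h ^ 2) * H22.MM (fun h => ind X h * wm D J m h) (fun _ => 1) := by
  set J0 : E ⊕ X → ℝ := Sum.elim J 0 with hJ0
  set K : ℕ → E ⊕ X → ℝ := fun k => Sum.elim 0 (fun _ => (k : ℝ)) with hK
  have hJ00 : ∀ x, 0 ≤ J0 x := by rintro (e | p) <;> simp [hJ0, hJ]
  have hK0 : ∀ k x, 0 ≤ K k x := by rintro k (e | p) <;> simp [hK]
  have hadd : ∀ k, J0 + K k = Sum.elim J (fun _ : X => (k : ℝ)) := by
    intro k
    funext x
    rcases x with e | p <;> simp [hJ0, hK]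
  set z : ℕ → ℝ := fun k => ∏ _p : X, wI k 0 with hz
  have z0 : ∀ k, 0 < z k := fun k => Finset.prod_pos fun p _ => wI_zero_pos (Nat.cast_nonneg k)
  set R : ℕ → (V → ℤ) → ℝ := fun k h => ∏ p : X, wI k (h p) / wI k 0 with hR
  have w2 : ∀ k (h : V → ℤ), wm (dX D X) (J0 + K k) m h = z k * (wm D J m h * R k h) := by
    intro k h
    rw [hadd]
    unfold wm W
    rw [Fintype.prod_sum_type]
    have e1 : ∏ p : X, wI (Sum.elim J (fun _ : X => (k : ℝ)) (Sum.inr p))
        (dX D X h (Sum.inr p)) = z k * R k h := by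
      simp only [hz, hR]
      rw [← Finset.prod_mul_distrib]
      refine Finset.prod_congr rfl fun p _ => ?_
      rw [mul_div_cancel₀ _ (wI_zero_pos (Nat.cast_nonneg k)).ne']
      rfl
    rw [e1]
    show (∏ e : E, wI (J e) (D h e)) * (z k * R k h) * gm m h = _
    ring
  have R0 : ∀ k h, 0 ≤ R k h := fun k h => Finset.prod_nonneg fun p _ =>
    div_nonneg (wI_nonneg (Nat.cast_nonneg k) _) (wI_nonneg (Nat.cast_nonneg k) _)
  have R1 : ∀ k h, R k h ≤ 1 := fun k h => Finset.prod_le_one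
    (fun p _ => div_nonneg (wI_nonneg (Nat.cast_nonneg k) _) (wI_nonneg (Nat.cast_nonneg k) _))
    fun p _ => by
      rw [div_le_one (wI_zero_pos (Nat.cast_nonneg k))]
      exact wI_anti (Nat.cast_nonneg k) (by rw [abs_zero]; exact abs_nonneg _)
  have Rlim : ∀ h, Tendsto (fun k => R k h) atTop (𝓝 1) := by
    intro h
    have h1 : Tendsto (fun k => R k h) atTop (𝓝 (∏ _p : X, (1 : ℝ))) :=
      tendsto_finsetProd _ fun p _ => wI_ratio _
    rwa [Finset.prod_const_one] at h1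
  have sw := sg_wm D hJ hm
  have lim : ∀ f : (V → ℤ) → ℝ, (∀ h, 0 ≤ f h) → Gr f →
      Tendsto (fun k => ∑' h, wm D J m h * R k h * f h) atTop (𝓝 (H22.MM (wm D J m) f)) := by
    intro f f0 hf
    refine tendsto_tsum_of_dominated_convergence (bound := fun h : V → ℤ => wm D J m h * f h)
      (sw.sum hf) (fun h => ?_) ?_
    · have h1 := ((Rlim h).const_mul (wm D J m h)).mul_const (f h)
      rwa [mul_one] at h1
    · filter_upwards with k h
      rw [Real.norm_eq_abs, abs_of_nonneg (mul_nonneg (mul_nonneg (sw.nonneg _) (R0 k h)) (f0 h))]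
      exact mul_le_mul_of_nonneg_right (mul_le_of_le_one_right (sw.nonneg _) (R1 k h)) (f0 h)
  have gsq : Gr fun h : V → ℤ => lin ρ h ^ 2 := by
    have := (Gr.lin ρ).mul (Gr.lin ρ)
    simpa only [pow_two] using this
  have l1 := lim (fun h => lin ρ h ^ 2) (fun h => sq_nonneg _) gsq
  have l2 := lim (fun _ => 1) (fun _ => zero_le_one) (Gr.const 1)
  have e1 : ∀ f, H22.MM (wm (dX D X) J0 m) f = H22.MM (fun h => ind X h * wm D J m h) f := by
    intro f
    unfold H22.MM
    exact tsum_congr fun h => by rw [wm_zero]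
  have key : ∀ k, H22.MM (fun h => ind X h * wm D J m h) (fun h => lin ρ h ^ 2) *
      (∑' h, wm D J m h * R k h * 1) ≤
      (∑' h, wm D J m h * R k h * lin ρ h ^ 2) *
        H22.MM (fun h => ind X h * wm D J m h) (fun _ => 1) := by
    intro k
    have hJK : ∀ x, 0 ≤ (J0 + K k) x := fun x => add_nonneg (hJ00 x) (hK0 k x)
    have h1 := mono_sq_m (sg_wm (dX D X) hJ00 hm) (sg_wm (dX D X) hJK hm)
      (gle_wm (dX D X) hJ00 (hK0 k) hm) ρ
    rw [e1, e1] at h1
    have e3 : ∀ f, H22.MM (wm (dX D X) (J0 + K k) m) f = z k * ∑' h, wm D J m h * R k h * f h := by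
      intro f
      unfold H22.MM
      rw [← tsum_mul_left]
      exact tsum_congr fun h => by rw [w2]; ring
    rw [e3, e3] at h1
    have h2 := z0 k
    refine le_of_mul_le_mul_left ?_ h2
    linarith
  have h3 := le_of_tendsto_of_tendsto' (l2.const_mul _) (l1.mul_const _) key
  exact h3

end pin

/-! ### the torus -/

section torus

variable {n : ℕ} [NeZero n]

/-- the differences along the edges -/
def dT (n : ℕ) : (SpecI.V n → ℤ) →+ (SpecI.V n × Bool → ℤ) where
  toFun h := fun e => h (SpecI.tgt e) - h e.1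
  map_zero' := by funext e; simp
  map_add' a b := by
    funext e
    simp only [Pi.add_apply]
    ring

lemma wt_univ (b ε : ℝ) (X : Finset (SpecI.V n)) (h : SpecI.V n → ℤ) :
    SpecI.wt b Finset.univ X (SpecI.full ε) h =
      ind X h * wm (dT n) (fun _ => b) (fun _ => ε) h := by
  classical
  unfold SpecI.wt wm W gm ind SpecI.full
  rw [← Finset.mul_sum, mul_assoc]
  congr 1
  by_cases h1 : ∀ x ∈ X, h x = 0 <;> simp

lemma val_succ_of_last {x : ZMod n} (hx : ¬ x.val + 1 < n) : x.val + 1 = n ∧ (x + 1).val = 0 := by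
  have h1 : x.val < n := x.val_lt
  have h2 : x.val + 1 = n := by omega
  refine ⟨h2, ?_⟩
  have h3 : x + 1 = 0 := by
    have : ((x.val + 1 : ℕ) : ZMod n) = x + 1 := by
      rw [Nat.cast_add, ZMod.natCast_zmod_val, Nat.cast_one]
    rw [← this, h2, ZMod.natCast_self]
  rw [h3, ZMod.val_zero]

/-- the edges which wrap around join sites of the ring -/
lemma wrap {h : SpecI.V n → ℤ} (hh : ∀ x ∈ SpecI.ring n, h x = 0) {e : SpecI.V n × Bool}
    (he : e ∉ SpecI.inn n) : h (SpecI.tgt e) - h e.1 = 0 := by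
  obtain ⟨x, d⟩ := e
  have he' : ¬ (if d then x.2.val + 1 < n else x.1.val + 1 < n) := fun h1 => he (by
    unfold SpecI.inn
    rw [Finset.mem_filter]
    exact ⟨Finset.mem_univ _, h1⟩)
  have hr : ∀ y : SpecI.V n, (y.1.val = 0 ∨ y.1.val + 1 = n ∨ y.2.val = 0 ∨ y.2.val + 1 = n) →
      h y = 0 := fun y hy => hh y (by
    unfold SpecI.ring
    rw [Finset.mem_filter]
    exact ⟨Finset.mem_univ _, hy⟩)
  cases d with
  | true =>
    simp only [if_true] at he'
    obtain ⟨h1, h2⟩ := val_succ_of_last he'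
    have a1 : h (SpecI.tgt (x, true)) = 0 := hr _ (by
      simp only [SpecI.tgt, if_true]
      exact Or.inr (Or.inr (Or.inl h2)))
    have a2 : h x = 0 := hr x (Or.inr (Or.inr (Or.inr h1)))
    show h (SpecI.tgt (x, true)) - h x = 0
    rw [a1, a2, sub_zero]
  | false =>
    simp only [Bool.false_eq_true, if_false] at he'
    obtain ⟨h1, h2⟩ := val_succ_of_last he'
    have a1 : h (SpecI.tgt (x, false)) = 0 := hr _ (by
      simp only [SpecI.tgt, Bool.false_eq_true, if_false]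
      exact Or.inl h2)
    have a2 : h x = 0 := hr x (Or.inr (Or.inl h1))
    show h (SpecI.tgt (x, false)) - h x = 0
    rw [a1, a2, sub_zero]

/-- the ring pinned torus is the ring pinned box -/
lemma wt_ring (b : ℝ) (Q : (SpecI.V n → ℤ) → ℝ) (h : SpecI.V n → ℤ) :
    SpecI.wt b Finset.univ (SpecI.ring n) Q h =
      wI b 0 ^ ((Finset.univ : Finset (SpecI.V n × Bool)) \ SpecI.inn n).card *
        SpecI.wt b (SpecI.inn n) (SpecI.ring n) Q h := by
  classical
  unfold SpecI.wt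
  by_cases h1 : ∀ x ∈ SpecI.ring n, h x = 0
  · rw [if_pos h1, one_mul, one_mul]
    have e1 : ∏ e : SpecI.V n × Bool, wI b (h (SpecI.tgt e) - h e.1) =
        (∏ e ∈ (Finset.univ : Finset (SpecI.V n × Bool)) \ SpecI.inn n,
          wI b (h (SpecI.tgt e) - h e.1)) *
          ∏ e ∈ SpecI.inn n, wI b (h (SpecI.tgt e) - h e.1) :=
      (Finset.prod_sdiff (Finset.subset_univ _)).symm
    have e2 : ∏ e ∈ (Finset.univ : Finset (SpecI.V n × Bool)) \ SpecI.inn n,
        wI b (h (SpecI.tgt e) - h e.1) =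
        wI b 0 ^ ((Finset.univ : Finset (SpecI.V n × Bool)) \ SpecI.inn n).card := by
      refine Finset.prod_eq_pow_card fun e he => ?_
      rw [wrap h1 (Finset.mem_sdiff.1 he).2]
    rw [e1, e2]
    ring
  · rw [if_neg h1]
    ring

lemma ex_ring {b : ℝ} (hb : 0 ≤ b) (Q : (SpecI.V n → ℤ) → ℝ) (F : (SpecI.V n → ℤ) → ℝ) :
    SpecI.ex b (SpecI.inn n) (SpecI.ring n) Q F =
      SpecI.ex b Finset.univ (SpecI.ring n) Q F := by
  unfold SpecI.ex
  set c := wI b 0 ^ ((Finset.univ : Finset (SpecI.V n × Bool)) \ SpecI.inn n).card with hc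
  have c0 : 0 < c := pow_pos (wI_zero_pos hb) _
  have e1 : ∑' h : SpecI.V n → ℤ, SpecI.wt b Finset.univ (SpecI.ring n) Q h * F h =
      c * ∑' h : SpecI.V n → ℤ, SpecI.wt b (SpecI.inn n) (SpecI.ring n) Q h * F h := by
    rw [← tsum_mul_left]
    exact tsum_congr fun h => by rw [wt_ring, mul_assoc]
  have e2 : ∑' h : SpecI.V n → ℤ, SpecI.wt b Finset.univ (SpecI.ring n) Q h =
      c * ∑' h : SpecI.V n → ℤ, SpecI.wt b (SpecI.inn n) (SpecI.ring n) Q h := by
    rw [← tsum_mul_left]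
    exact tsum_congr fun h => by rw [wt_ring]
  rw [e1, e2, mul_div_mul_left _ _ c0.ne']

lemma pr_eq (φ : SpecI.V n → ℝ) (h : SpecI.V n → ℤ) : SpecI.pr φ h = lin φ h := rfl

/-- **pinning any set of the torus lowers second moments** -/
theorem ex_pin_le {b ε : ℝ} (hb : 0 ≤ b) (hε : 0 < ε) (X : Finset (SpecI.V n))
    (φ : SpecI.V n → ℝ) :
    SpecI.ex b Finset.univ X (SpecI.full ε) (fun h => SpecI.pr φ h ^ 2) ≤
      SpecI.ex b Finset.univ ∅ (SpecI.full ε) (fun h => SpecI.pr φ h ^ 2) := by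
  have hm : ∀ v : SpecI.V n, 0 < (fun _ => ε : SpecI.V n → ℝ) v := fun _ => hε
  have hJ : ∀ e : SpecI.V n × Bool, 0 ≤ (fun _ => b : SpecI.V n × Bool → ℝ) e := fun _ => hb
  have h1 := pin_sq (dT n) X hJ hm φ
  have sw := sg_wm (dT n) hJ hm
  have e0 : ∀ h : SpecI.V n → ℤ, ind (∅ : Finset (SpecI.V n)) h = 1 := fun h => by
    unfold ind
    simp
  unfold SpecI.ex
  simp only [wt_univ, e0, one_mul, pr_eq]
  have d1 : 0 < ∑' h : SpecI.V n → ℤ, wm (dT n) (fun _ => b) (fun _ => ε) h := by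
    have hs := sw.sum (Gr.const 1)
    simp only [mul_one] at hs
    refine hs.tsum_pos (fun h => sw.nonneg h) 0 ?_
    refine mul_pos (Finset.prod_pos fun e _ => ?_) (gm_pos _ _)
    have : dT n 0 e = 0 := by simp [dT]
    rw [this]
    exact wI_zero_pos hb
  have i0 : ∀ h : SpecI.V n → ℤ, 0 ≤ ind X h := fun h => by
    unfold ind; split_ifs <;> norm_num
  have i1 : ∀ h : SpecI.V n → ℤ, ind X h ≤ 1 := fun h => by
    unfold ind; split_ifs <;> norm_num
  have d2 : 0 < ∑' h : SpecI.V n → ℤ, ind X h * wm (dT n) (fun _ => b) (fun _ => ε) h := by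
    have hs := sw.sum (Gr.const 1)
    simp only [mul_one] at hs
    have hs2 : Summable fun h : SpecI.V n → ℤ => ind X h * wm (dT n) (fun _ => b) (fun _ => ε) h :=
      Summable.of_nonneg_of_le (fun h => mul_nonneg (i0 h) (sw.nonneg h))
        (fun h => mul_le_of_le_one_left (sw.nonneg h) (i1 h)) hs
    refine hs2.tsum_pos (fun h => mul_nonneg (i0 h) (sw.nonneg h)) 0 ?_
    have hi : ind X (0 : SpecI.V n → ℤ) = 1 := by
      unfold ind
      simp
    rw [hi, one_mul]
    refine mul_pos (Finset.prod_pos fun e _ => ?_) (gm_pos _ _)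
    have : dT n 0 e = 0 := by simp [dT]
    rw [this]
    exact wI_zero_pos hb
  rw [div_le_div_iff₀ d2 d1]
  unfold H22.MM at h1
  simp only [mul_one] at h1
  exact h1

end torus

/-- **Row TOR.** -/
theorem torI {b : ℝ} (hb : 0 ≤ b) : SpecI.TOR b := by
  intro κ hκ k φ
  have hε : 0 < SpecI.epsK κ k := by unfold SpecI.epsK; positivity
  unfold SpecI.exD SpecI.exT
  rw [ex_ring hb]
  exact ex_pin_le hb hε _ φ

end Vale.Agent.P159.TM.H129
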