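import Vale.Agent.P159.R2.H254.Laurent
import Vale.Agent.P159.H353.ProdSum
import Mathlib.MeasureTheory.Integral.Pi
import Mathlib.Analysis.SpecialFunctions.Gaussian.PoissonSummation
import Mathlib.Analysis.SpecialFunctions.Integrals.Basic
import Mathlib.Analysis.SpecialFunctions.Trigonometric.Series
import Mathlib.Analysis.InnerProductSpace.Dual
import Mathlib.Probability.Distributions.Gaussian.Real

/-!
Bare domination for integer heights: exponential moments of linear functionals of the gradient are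
at most those of independent currents, for every positive definite weight of the heights (masses,
pinned sites, ...).
-/

open MeasureTheory Filter Topology

namespace Vale.Agent.P159.TM.H129

open Vale.Agent.P159 Vale.Agent.P159.H353 Vale.Agent.P159.R2.H254

/-! ### the circle -/

/-- normalised Lebesgue measure of one period -/
noncomputable def circ : Measure ℝ :=
  (ENNReal.ofReal (2 * Real.pi)⁻¹) • volume.restrict (Set.Ioc 0 (2 * Real.pi))

instance : IsProbabilityMeasure circ := ⟨by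
  unfold circ
  rw [Measure.smul_apply, Measure.restrict_apply_univ, Real.volume_Ioc, smul_eq_mul, sub_zero,
    ← ENNReal.ofReal_mul (by positivity), inv_mul_cancel₀ (by positivity), ENNReal.ofReal_one]⟩

lemma circ_int (f : ℝ → ℂ) : ∫ θ, f θ ∂circ =
    ((2 * Real.pi)⁻¹ : ℝ) • ∫ θ in (0 : ℝ)..(2 * Real.pi), f θ := by
  unfold circ
  rw [integral_smul_measure, ENNReal.toReal_ofReal (by positivity),
    intervalIntegral.integral_of_le (by positivity)]

lemma circ_exp (m : ℤ) : ∫ θ : ℝ, Complex.exp (Complex.I * (m : ℂ) * (θ : ℂ)) ∂circ =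
    if m = 0 then 1 else 0 := by
  by_cases h : m = 0
  · simp [h]
  · rw [circ_int, if_neg h,
      integral_exp_mul_complex (mul_ne_zero Complex.I_ne_zero (by exact_mod_cast h))]
    have h1 : Complex.exp (Complex.I * (m : ℂ) * ((2 * Real.pi : ℝ) : ℂ)) = 1 := by
      rw [Complex.exp_eq_one_iff]
      exact ⟨m, by push_cast; ring⟩
    rw [h1]
    simp

/-- Fourier coefficients of the tilted weight of a bond -/
lemma coef {b : ℝ} (hb : 0 ≤ b) (c : ℝ) (n : ℤ) :
    ∫ θ : ℝ, Complex.exp (b * Complex.cosh (c + θ * Complex.I)) *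
      Complex.exp (-(Complex.I * n * θ)) ∂circ = ((wI b n * Real.exp (c * n) : ℝ) : ℂ) := by
  set F : ℤ → ℝ → ℂ := fun k θ => ((wI b k * Real.exp (c * k) : ℝ) : ℂ) *
    Complex.exp (Complex.I * ((k - n : ℤ) : ℂ) * θ) with hF
  have hz : ∀ θ : ℝ, Complex.exp (c + θ * Complex.I) ≠ 0 := fun θ => Complex.exp_ne_zero _
  have hsum : ∀ θ : ℝ, HasSum (fun k => F k θ)
      (Complex.exp (b * Complex.cosh (c + θ * Complex.I)) *
        Complex.exp (-(Complex.I * n * θ))) := by
    intro θ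
    have h := (laurent hb (hz θ)).mul_right (Complex.exp (-(Complex.I * n * θ)))
    have e1 : (Complex.exp (c + θ * Complex.I) + (Complex.exp (c + θ * Complex.I))⁻¹) / 2 =
        Complex.cosh (c + θ * Complex.I) := by
      rw [Complex.cosh, ← Complex.exp_neg]
    rw [e1] at h
    refine hs_congr h fun k => ?_
    rw [hF]
    simp only
    rw [← Complex.exp_int_mul, mul_assoc, ← Complex.exp_add]
    push_cast
    rw [mul_assoc (wI b k : ℂ), ← Complex.exp_add]
    congr 2
    ring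
  have hnorm : ∀ k θ, ‖F k θ‖ = wI b k * Real.exp (c * k) := by
    intro k θ
    rw [hF]
    simp only
    rw [norm_mul, Complex.norm_real, Real.norm_eq_abs,
      abs_of_nonneg (mul_nonneg (wI_nonneg hb k) (Real.exp_pos _).le)]
    have : Complex.I * ((k - n : ℤ) : ℂ) * (θ : ℂ) = (((k - n : ℤ) * θ : ℝ) : ℂ) * Complex.I := by
      push_cast; ring
    rw [this, Complex.norm_exp_ofReal_mul_I, mul_one]
  have hsm : Summable fun k : ℤ => wI b k * Real.exp (c * k) := by
    have h := (laurent hb (Complex.exp_ne_zero (c : ℂ))).summable.norm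
    refine h.congr fun k => ?_
    rw [norm_mul, Complex.norm_real, Real.norm_eq_abs, abs_of_nonneg (wI_nonneg hb k),
      ← Complex.exp_int_mul, Complex.norm_exp]
    congr 2
    rw [← Complex.ofReal_intCast, ← Complex.ofReal_mul, Complex.ofReal_re, mul_comm]
  have hcont : ∀ k, Continuous (F k) := fun k => by
    rw [hF]
    fun_prop
  have hint : ∀ k, Integrable (F k) circ := fun k =>
    Integrable.of_bound (C := wI b k * Real.exp (c * k)) (hcont k).aestronglyMeasurable
      (Eventually.of_forall fun θ => (hnorm k θ).le)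
  have hI : ∀ k, ∫ θ, ‖F k θ‖ ∂circ = wI b k * Real.exp (c * k) := by
    intro k
    simp only [hnorm]
    simp
  have hmain := hasSum_integral_of_summable_integral_norm hint (by simpa only [hI] using hsm)
  have e1 : ∫ θ, ∑' k, F k θ ∂circ = ∫ θ : ℝ, Complex.exp (b * Complex.cosh (c + θ * Complex.I)) *
      Complex.exp (-(Complex.I * n * θ)) ∂circ :=
    integral_congr_ae (Eventually.of_forall fun θ => (hsum θ).tsum_eq)
  rw [e1] at hmain
  have e2 : ∀ k, ∫ θ, F k θ ∂circ = if k = n then ((wI b n * Real.exp (c * n) : ℝ) : ℂ) else 0 := by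
    intro k
    rw [hF]
    simp only
    rw [integral_const_mul, circ_exp]
    by_cases h : k = n
    · subst h
      simp
    · have : k - n ≠ 0 := sub_ne_zero.2 h
      rw [if_neg this, if_neg h, mul_zero]
  simp only [e2] at hmain
  exact hmain.unique (hasSum_ite_eq n _)

/-! ### positive definite weights of the heights -/

variable {V A : Type} [Fintype V] [Fintype A]

/-- real inner product with an integer vector -/
def ip (φ : V → ℝ) (h : V → ℤ) : ℝ := ∑ x, φ x * h x

/-- positive definite, even, nonnegative, summable weight of the heights -/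
structure PD (M : (V → ℤ) → ℝ) : Prop where
  nonneg : ∀ h, 0 ≤ M h
  even : ∀ h, M (-h) = M h
  summ : Summable M
  pos : ∀ φ : V → ℝ, 0 ≤ ∑' h, M h * Real.cos (ip φ h)

omit [Fintype A] in
lemma ip_neg (φ : V → ℝ) (h : V → ℤ) : ip φ (-h) = -ip φ h := by
  simp [ip]

/-- the height differences -/
def nn (D : A → V → ℤ) (h : V → ℤ) (a : A) : ℤ := ∑ x, D a x * h x

/-- unnormalised mean -/
noncomputable def Zs (M : (V → ℤ) → ℝ) (D : A → V → ℤ) (J : A → ℝ) (F : (V → ℤ) → ℝ) : ℝ :=
  ∑' h, M h * (∏ a, wI (J a) (nn D h a)) * F h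

omit [Fintype V] [Fintype A] in
lemma wI_exp_le {b : ℝ} (hb : 0 ≤ b) (c : ℝ) (n : ℤ) :
    wI b n * Real.exp (c * n) ≤ Real.exp (b * Real.cosh c) := by
  have h := laurent hb (z := Complex.exp c) (Complex.exp_ne_zero _)
  have e1 : ∀ n : ℤ, (wI b n : ℂ) * Complex.exp (c : ℂ) ^ n =
      ((wI b n * Real.exp (c * n) : ℝ) : ℂ) := by
    intro n
    rw [← Complex.exp_int_mul]
    push_cast
    rw [mul_comm (n : ℂ) (c : ℂ)]
  have e2 : Complex.exp (b * ((Complex.exp c + (Complex.exp c)⁻¹) / 2)) =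
      ((Real.exp (b * Real.cosh c) : ℝ) : ℂ) := by
    push_cast
    rw [← Complex.exp_neg, Complex.cosh]
  rw [e2] at h
  simp only [e1] at h
  have h' : HasSum (fun n : ℤ => wI b n * Real.exp (c * n)) (Real.exp (b * Real.cosh c)) := by
    exact_mod_cast h
  exact le_hasSum h' n fun k _ => mul_nonneg (wI_nonneg hb k) (Real.exp_pos _).le

lemma cexp_sum {M : (V → ℤ) → ℝ} (hM : PD M) (φ : V → ℝ) :
    ∑' h, (M h : ℂ) * Complex.exp (-(Complex.I * (ip φ h : ℝ))) =
      ((∑' h, M h * Real.cos (ip φ h) : ℝ) : ℂ) := by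
  have hb : ∀ h, |M h * Real.sin (ip φ h)| ≤ M h := fun h => by
    rw [abs_mul, abs_of_nonneg (hM.nonneg h)]
    exact mul_le_of_le_one_right (hM.nonneg h) (Real.abs_sin_le_one _)
  have hs : Summable fun h => M h * Real.sin (ip φ h) :=
    (Summable.of_nonneg_of_le (fun h => abs_nonneg _) hb hM.summ).of_abs
  have hb' : ∀ h, |M h * Real.cos (ip φ h)| ≤ M h := fun h => by
    rw [abs_mul, abs_of_nonneg (hM.nonneg h)]
    exact mul_le_of_le_one_right (hM.nonneg h) (Real.abs_cos_le_one _)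
  have hc : Summable fun h => M h * Real.cos (ip φ h) :=
    (Summable.of_nonneg_of_le (fun h => abs_nonneg _) hb' hM.summ).of_abs
  have h0 : ∑' h, M h * Real.sin (ip φ h) = 0 := by
    have h1 : ∑' h, M h * Real.sin (ip φ h) = ∑' h, -(M h * Real.sin (ip φ h)) := by
      rw [← (Equiv.neg (V → ℤ)).tsum_eq (fun h => M h * Real.sin (ip φ h))]
      refine tsum_congr fun h => ?_
      show M (-h) * Real.sin (ip φ (-h)) = _
      rw [hM.even, ip_neg, Real.sin_neg]
      ring
    rw [tsum_neg] at h1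
    linarith
  have e : ∀ h, (M h : ℂ) * Complex.exp (-(Complex.I * (ip φ h : ℝ))) =
      ((M h * Real.cos (ip φ h) : ℝ) : ℂ) - Complex.I * ((M h * Real.sin (ip φ h) : ℝ) : ℂ) := by
    intro h
    have : -(Complex.I * ((ip φ h : ℝ) : ℂ)) = ((-(ip φ h) : ℝ) : ℂ) * Complex.I := by
      push_cast; ring
    rw [this, Complex.exp_mul_I, ← Complex.ofReal_cos, ← Complex.ofReal_sin, Real.cos_neg,
      Real.sin_neg]
    push_cast
    ring
  have hcC : Summable fun h => ((M h * Real.cos (ip φ h) : ℝ) : ℂ) := by exact_mod_cast hc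
  have hsC : Summable fun h => ((M h * Real.sin (ip φ h) : ℝ) : ℂ) := by exact_mod_cast hs
  rw [tsum_congr e, hcC.tsum_sub (hsC.mul_left _), tsum_mul_left, ← Complex.ofReal_tsum,
    ← Complex.ofReal_tsum, h0]
  simp

/-- the characteristic function of the weight -/
noncomputable def ch (M : (V → ℤ) → ℝ) (φ : V → ℝ) : ℝ := ∑' h, M h * Real.cos (ip φ h)

/-- transpose of the difference operator -/
def tr (D : A → V → ℤ) (θ : A → ℝ) (x : V) : ℝ := ∑ a, θ a * D a x

lemma ip_tr (D : A → V → ℤ) (θ : A → ℝ) (h : V → ℤ) :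
    ip (tr D θ) h = ∑ a, θ a * (nn D h a : ℝ) := by
  unfold ip tr nn
  push_cast
  simp only [Finset.sum_mul, Finset.mul_sum]
  rw [Finset.sum_comm]
  exact Finset.sum_congr rfl fun a _ => Finset.sum_congr rfl fun x _ => by ring

omit [Fintype A] in
lemma ch_cont {M : (V → ℤ) → ℝ} (hM : PD M) : Continuous (ch M) := by
  unfold ch
  refine continuous_tsum (fun h => ?_) hM.summ fun h φ => ?_
  · unfold ip
    fun_prop
  · rw [Real.norm_eq_abs, abs_mul, abs_of_nonneg (hM.nonneg h)]
    exact mul_le_of_le_one_right (hM.nonneg h) (Real.abs_cos_le_one _)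

omit [Fintype A] in
lemma ch_le {M : (V → ℤ) → ℝ} (hM : PD M) (φ : V → ℝ) : |ch M φ| ≤ ∑' h, M h := by
  unfold ch
  rw [← Real.norm_eq_abs]
  refine tsum_of_norm_bounded hM.summ.hasSum fun h => ?_
  rw [Real.norm_eq_abs, abs_mul, abs_of_nonneg (hM.nonneg h)]
  exact mul_le_of_le_one_right (hM.nonneg h) (Real.abs_cos_le_one _)

/-- the measure on the angles -/
noncomputable abbrev tor (A : Type) [Fintype A] : Measure (A → ℝ) := Measure.pi fun _ => circ

/-- **Dual representation** of the tilted sum. -/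
theorem dual {M : (V → ℤ) → ℝ} (hM : PD M) (D : A → V → ℤ) {J : A → ℝ} (hJ : ∀ a, 0 ≤ J a)
    (c : A → ℝ) :
    (Zs M D J (fun h => Real.exp (∑ a, c a * (nn D h a : ℝ))) : ℂ) =
      ∫ θ, (∏ a, Complex.exp (J a * Complex.cosh (c a + θ a * Complex.I))) *
        ((ch M (tr D θ) : ℝ) : ℂ) ∂(tor A) := by
  set f : A → ℝ → ℂ := fun a θ => Complex.exp (J a * Complex.cosh (c a + θ * Complex.I)) with hf
  have hfn : ∀ a θ, ‖f a θ‖ ≤ Real.exp (J a * Real.cosh (c a)) := by
    intro a θ
    rw [hf]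
    simp only
    rw [Complex.norm_exp]
    refine Real.exp_le_exp.2 ?_
    have h1 : (J a * Complex.cosh (c a + θ * Complex.I) : ℂ).re =
        J a * (Real.cosh (c a) * Real.cos θ) := by
      rw [Complex.re_ofReal_mul, Complex.cosh_add, Complex.cosh_mul_I, Complex.sinh_mul_I,
        ← Complex.ofReal_cosh, ← Complex.ofReal_sinh, ← Complex.ofReal_cos, ← Complex.ofReal_sin]
      simp [-Complex.ofReal_cosh, -Complex.ofReal_sinh, -Complex.ofReal_cos, -Complex.ofReal_sin]
    rw [h1]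
    refine mul_le_mul_of_nonneg_left ?_ (hJ a)
    have := Real.cosh_pos (c a)
    nlinarith [Real.cos_le_one θ]
  have hfc : ∀ a, Continuous (f a) := fun a => by
    rw [hf]
    simp only
    have : Continuous fun θ : ℝ => Complex.cosh (c a + θ * Complex.I) :=
      Complex.continuous_cosh.comp (by fun_prop)
    exact Complex.continuous_exp.comp (continuous_const.mul this)
  set G : (V → ℤ) → (A → ℝ) → ℂ := fun h θ => (M h : ℂ) *
    ∏ a, (f a (θ a) * Complex.exp (-(Complex.I * (nn D h a) * θ a))) with hG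
  set K : ℝ := ∏ a, Real.exp (J a * Real.cosh (c a)) with hK
  have K0 : 0 ≤ K := Finset.prod_nonneg fun a _ => (Real.exp_pos _).le
  have hexp1 : ∀ (n : ℤ) (x : ℝ), ‖Complex.exp (-(Complex.I * n * x))‖ = 1 := by
    intro n x
    have : -(Complex.I * (n : ℂ) * (x : ℂ)) = ((-(n * x) : ℝ) : ℂ) * Complex.I := by
      push_cast; ring
    rw [this, Complex.norm_exp_ofReal_mul_I]
  have hGn : ∀ h θ, ‖G h θ‖ ≤ M h * K := by
    intro h θ
    rw [hG]
    simp only
    rw [norm_mul, Complex.norm_real, Real.norm_eq_abs, abs_of_nonneg (hM.nonneg h), norm_prod]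
    refine mul_le_mul_of_nonneg_left ?_ (hM.nonneg h)
    refine Finset.prod_le_prod (fun a _ => norm_nonneg _) fun a _ => ?_
    rw [norm_mul, hexp1, mul_one]
    exact hfn a (θ a)
  have hGc : ∀ h, Continuous (G h) := by
    intro h
    rw [hG]
    simp only
    refine continuous_const.mul (continuous_finsetProd _ fun a _ => ?_)
    exact ((hfc a).comp (continuous_apply a)).mul (by fun_prop)
  have hGi : ∀ h, Integrable (G h) (tor A) := fun h =>
    Integrable.of_bound (C := M h * K) (hGc h).aestronglyMeasurable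
      (Eventually.of_forall fun θ => hGn h θ)
  have hGs : Summable fun h => ∫ θ, ‖G h θ‖ ∂(tor A) := by
    refine Summable.of_nonneg_of_le (fun h => integral_nonneg fun θ => norm_nonneg _)
      (fun h => ?_) (hM.summ.mul_right K)
    calc ∫ θ, ‖G h θ‖ ∂(tor A) ≤ ∫ _θ, M h * K ∂(tor A) :=
          integral_mono (hGi h).norm (integrable_const _) (hGn h)
      _ = _ := by simp
  have hmain := hasSum_integral_of_summable_integral_norm hGi hGs
  have e1 : ∀ h, ∫ θ, G h θ ∂(tor A) =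
      ((M h * (∏ a, wI (J a) (nn D h a)) * Real.exp (∑ a, c a * (nn D h a : ℝ)) : ℝ) : ℂ) := by
    intro h
    rw [hG]
    simp only
    rw [integral_const_mul, integral_fintype_prod_eq_prod
      (f := fun a θ => f a θ * Complex.exp (-(Complex.I * (nn D h a) * (θ : ℝ))))
      (μ := fun _ => circ)]
    have e2 : ∀ a, ∫ θ : ℝ, f a θ * Complex.exp (-(Complex.I * (nn D h a) * θ)) ∂circ =
        ((wI (J a) (nn D h a) * Real.exp (c a * (nn D h a)) : ℝ) : ℂ) := fun a =>
      coef (hJ a) (c a) (nn D h a)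
    simp only [e2]
    rw [← Complex.ofReal_prod, Finset.prod_mul_distrib, ← Real.exp_sum]
    push_cast
    ring
  simp only [e1] at hmain
  have e3 : ∀ θ, ∑' h, G h θ = (∏ a, f a (θ a)) * ((ch M (tr D θ) : ℝ) : ℂ) := by
    intro θ
    have e4 : ∀ h, G h θ = (∏ a, f a (θ a)) *
        ((M h : ℂ) * Complex.exp (-(Complex.I * (ip (tr D θ) h : ℝ)))) := by
      intro h
      rw [hG]
      simp only
      rw [Finset.prod_mul_distrib, ip_tr]
      have : ∏ a, Complex.exp (-(Complex.I * (nn D h a : ℂ) * (θ a : ℂ))) =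
          Complex.exp (-(Complex.I * ((∑ a, θ a * (nn D h a : ℝ) : ℝ) : ℂ))) := by
        rw [← Complex.exp_sum]
        congr 1
        push_cast
        rw [Finset.sum_neg_distrib, Finset.mul_sum]
        congr 1
        exact Finset.sum_congr rfl fun a _ => by ring
      rw [this]
      ring
    rw [tsum_congr e4, tsum_mul_left, cexp_sum hM]
    rfl
  have e5 : ∫ θ, ∑' h, G h θ ∂(tor A) = ∫ θ, (∏ a, f a (θ a)) * ((ch M (tr D θ) : ℝ) : ℂ) ∂(tor A) :=
    integral_congr_ae (Eventually.of_forall e3)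
  rw [e5] at hmain
  rw [← hmain.tsum_eq, ← Complex.ofReal_tsum]
  rfl


lemma norm_fac {b : ℝ} (hb : 0 ≤ b) (c θ : ℝ) :
    ‖Complex.exp (b * Complex.cosh (c + θ * Complex.I))‖ ≤
      Real.exp (b * (Real.cosh c - 1)) * Real.exp (b * Real.cos θ) := by
  rw [Complex.norm_exp, ← Real.exp_add]
  refine Real.exp_le_exp.2 ?_
  have h1 : (b * Complex.cosh (c + θ * Complex.I) : ℂ).re =
      b * (Real.cosh c * Real.cos θ) := by
    rw [Complex.re_ofReal_mul, Complex.cosh_add, Complex.cosh_mul_I, Complex.sinh_mul_I,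
      ← Complex.ofReal_cosh, ← Complex.ofReal_sinh, ← Complex.ofReal_cos, ← Complex.ofReal_sin]
    simp [-Complex.ofReal_cosh, -Complex.ofReal_sinh, -Complex.ofReal_cos, -Complex.ofReal_sin]
  rw [h1, ← mul_add]
  refine mul_le_mul_of_nonneg_left ?_ hb
  have := Real.one_le_cosh c
  nlinarith [Real.cos_le_one θ]

lemma fac_zero (b θ : ℝ) :
    Complex.exp (b * Complex.cosh (((0 : ℝ) : ℂ) + θ * Complex.I)) =
      ((Real.exp (b * Real.cos θ) : ℝ) : ℂ) := by
  rw [Complex.ofReal_zero, zero_add, Complex.cosh_mul_I, Complex.ofReal_exp]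
  push_cast
  rfl

/-- the weight of the heights -/
noncomputable def wg (M : (V → ℤ) → ℝ) (D : A → V → ℤ) (J : A → ℝ) (h : V → ℤ) : ℝ :=
  M h * ∏ a, wI (J a) (nn D h a)

lemma wg_nonneg {M : (V → ℤ) → ℝ} (hM : PD M) (D : A → V → ℤ) {J : A → ℝ} (hJ : ∀ a, 0 ≤ J a)
    (h : V → ℤ) : 0 ≤ wg M D J h :=
  mul_nonneg (hM.nonneg h) (Finset.prod_nonneg fun a _ => wI_nonneg (hJ a) _)

lemma summ_exp {M : (V → ℤ) → ℝ} (hM : PD M) (D : A → V → ℤ) {J : A → ℝ} (hJ : ∀ a, 0 ≤ J a)
    (c : A → ℝ) :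
    Summable fun h => wg M D J h * Real.exp (∑ a, c a * (nn D h a : ℝ)) := by
  refine Summable.of_nonneg_of_le (fun h => mul_nonneg (wg_nonneg hM D hJ h) (Real.exp_pos _).le)
    (fun h => ?_) (hM.summ.mul_right (∏ a, Real.exp (J a * Real.cosh (c a))))
  unfold wg
  rw [Real.exp_sum, mul_assoc, ← Finset.prod_mul_distrib]
  refine mul_le_mul_of_nonneg_left ?_ (hM.nonneg h)
  exact Finset.prod_le_prod (fun a _ => mul_nonneg (wI_nonneg (hJ a) _) (Real.exp_pos _).le)
    fun a _ => wI_exp_le (hJ a) (c a) _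

/-- the value of the linear functional of the gradient -/
def lc (D : A → V → ℤ) (c : A → ℝ) (h : V → ℤ) : ℝ := ∑ a, c a * (nn D h a : ℝ)

lemma lc_smul (D : A → V → ℤ) (c : A → ℝ) (t : ℝ) (h : V → ℤ) :
    lc D (fun a => t * c a) h = t * lc D c h := by
  unfold lc
  rw [Finset.mul_sum]
  exact Finset.sum_congr rfl fun a _ => by ring

/-- growth condition which gives summability -/
lemma summ_growth {M : (V → ℤ) → ℝ} (hM : PD M) (D : A → V → ℤ) {J : A → ℝ} (hJ : ∀ a, 0 ≤ J a)
    (c : A → ℝ) {F : (V → ℤ) → ℝ} {C : ℝ} (hF : ∀ h, |F h| ≤ C * Real.exp |lc D c h|) :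
    Summable fun h => wg M D J h * F h := by
  have h1 := summ_exp hM D hJ c
  have h2 := summ_exp hM D hJ (fun a => -1 * c a)
  have h3 : Summable fun h => |C| * (wg M D J h * Real.exp (∑ a, c a * (nn D h a : ℝ)) +
      wg M D J h * Real.exp (∑ a, (-1 * c a) * (nn D h a : ℝ))) := (h1.add h2).mul_left _
  refine Summable.of_norm_bounded h3 fun h => ?_
  rw [Real.norm_eq_abs, abs_mul, abs_of_nonneg (wg_nonneg hM D hJ h)]
  have e1 : ∑ a, (-1 * c a) * (nn D h a : ℝ) = -lc D c h := by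
    have := lc_smul D c (-1) h
    unfold lc at this ⊢
    rw [this]; ring
  have e2 : ∑ a, c a * (nn D h a : ℝ) = lc D c h := rfl
  rw [e1, e2, ← mul_add, ← mul_assoc, mul_comm |C|, mul_assoc]
  refine mul_le_mul_of_nonneg_left ?_ (wg_nonneg hM D hJ h)
  refine (hF h).trans ?_
  have h4 : Real.exp |lc D c h| ≤ Real.exp (lc D c h) + Real.exp (-lc D c h) := by
    rcases abs_choice (lc D c h) with h5 | h5 <;> rw [h5]
    · linarith [Real.exp_pos (-lc D c h)]
    · linarith [Real.exp_pos (lc D c h)]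
  calc C * Real.exp |lc D c h| ≤ |C| * Real.exp |lc D c h| :=
        mul_le_mul_of_nonneg_right (le_abs_self C) (Real.exp_pos _).le
    _ ≤ _ := mul_le_mul_of_nonneg_left h4 (abs_nonneg _)

lemma Zs_eq (M : (V → ℤ) → ℝ) (D : A → V → ℤ) (J : A → ℝ) (F : (V → ℤ) → ℝ) :
    Zs M D J F = ∑' h, wg M D J h * F h := rfl

/-- **Bare domination**: for every positive definite weight of the heights the exponential moments
of a linear functional of the differences are at most those of independent currents. -/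
theorem bare_exp {M : (V → ℤ) → ℝ} (hM : PD M) (D : A → V → ℤ) {J : A → ℝ} (hJ : ∀ a, 0 ≤ J a)
    (c : A → ℝ) :
    Zs M D J (fun h => Real.exp (lc D c h)) ≤
      Real.exp (∑ a, J a * (Real.cosh (c a) - 1)) * Zs M D J (fun _ => 1) := by
  have h1 := dual hM D hJ c
  have h0 := dual hM D hJ (fun _ => 0)
  have e0 : (fun h : V → ℤ => Real.exp (∑ a, (fun _ : A => (0 : ℝ)) a * (nn D h a : ℝ))) =
      fun _ => 1 := by
    funext h
    simp
  rw [e0] at h0
  set g : (A → ℝ) → ℝ := fun θ => (∏ a, Real.exp (J a * Real.cos (θ a))) * ch M (tr D θ) with hg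
  have e1 : ∫ θ, (∏ a, Complex.exp (J a * Complex.cosh ((((fun _ : A => (0 : ℝ)) a : ℝ) : ℂ) +
      θ a * Complex.I))) * ((ch M (tr D θ) : ℝ) : ℂ) ∂(tor A) = ∫ θ, ((g θ : ℝ) : ℂ) ∂(tor A) := by
    refine integral_congr_ae (Eventually.of_forall fun θ => ?_)
    simp only [fac_zero, hg]
    push_cast
    rfl
  rw [e1, integral_complex_ofReal] at h0
  have h0' : Zs M D J (fun _ => 1) = ∫ θ, g θ ∂(tor A) := by exact_mod_cast h0
  have hgc : Continuous g := by
    rw [hg]
    refine Continuous.mul (continuous_finsetProd _ fun a _ => by fun_prop) ?_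
    refine (ch_cont hM).comp (continuous_pi fun x => ?_)
    unfold tr
    fun_prop
  have hgb : ∀ θ, ‖g θ‖ ≤ (∏ a, Real.exp (J a)) * ∑' h, M h := by
    intro θ
    rw [hg]
    simp only
    rw [norm_mul, Real.norm_eq_abs, Real.norm_eq_abs,
      abs_of_nonneg (Finset.prod_nonneg fun a _ => (Real.exp_pos _).le)]
    refine mul_le_mul ?_ (ch_le hM _) (abs_nonneg _)
      (Finset.prod_nonneg fun a _ => (Real.exp_pos _).le)
    refine Finset.prod_le_prod (fun a _ => (Real.exp_pos _).le) fun a _ => ?_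
    exact Real.exp_le_exp.2 (mul_le_of_le_one_right (hJ a) (Real.cos_le_one _))
  have hgi : Integrable g (tor A) :=
    Integrable.of_bound (C := (∏ a, Real.exp (J a)) * ∑' h, M h) hgc.aestronglyMeasurable
      (Eventually.of_forall hgb)
  set S : ℝ := ∑ a, J a * (Real.cosh (c a) - 1) with hS
  have chp : ∀ φ : V → ℝ, 0 ≤ ch M φ := fun φ => hM.pos φ
  have hpt : ∀ θ, ‖(∏ a, Complex.exp (J a * Complex.cosh (c a + θ a * Complex.I))) *
      ((ch M (tr D θ) : ℝ) : ℂ)‖ ≤ Real.exp S * g θ := by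
    intro θ
    rw [norm_mul, Complex.norm_real, Real.norm_eq_abs, abs_of_nonneg (chp _), norm_prod, hg]
    simp only
    rw [← mul_assoc]
    refine mul_le_mul_of_nonneg_right ?_ (chp _)
    rw [hS, Real.exp_sum, ← Finset.prod_mul_distrib]
    exact Finset.prod_le_prod (fun a _ => norm_nonneg _) fun a _ => norm_fac (hJ a) (c a) (θ a)
  have h2 : ‖((Zs M D J (fun h => Real.exp (∑ a, c a * (nn D h a : ℝ))) : ℝ) : ℂ)‖ ≤
      Real.exp S * ∫ θ, g θ ∂(tor A) := by
    rw [h1, ← integral_const_mul]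
    exact norm_integral_le_of_norm_le (hgi.const_mul _) (Eventually.of_forall hpt)
  rw [Complex.norm_real, Real.norm_eq_abs, ← h0'] at h2
  exact (le_abs_self _).trans h2

theorem bare_cosh {M : (V → ℤ) → ℝ} (hM : PD M) (D : A → V → ℤ) {J : A → ℝ} (hJ : ∀ a, 0 ≤ J a)
    (c : A → ℝ) :
    Zs M D J (fun h => Real.cosh (lc D c h)) ≤
      Real.exp (∑ a, J a * (Real.cosh (c a) - 1)) * Zs M D J (fun _ => 1) := by
  have h1 := bare_exp hM D hJ c
  have h2 := bare_exp hM D hJ (fun a => -1 * c a)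
  have s1 : Summable fun h => wg M D J h * Real.exp (lc D c h) := summ_exp hM D hJ c
  have s2 : Summable fun h => wg M D J h * Real.exp (lc D (fun a => -1 * c a) h) :=
    summ_exp hM D hJ _
  have e1 : Zs M D J (fun h => Real.cosh (lc D c h)) =
      (Zs M D J (fun h => Real.exp (lc D c h)) +
        Zs M D J (fun h => Real.exp (lc D (fun a => -1 * c a) h))) / 2 := by
    rw [Zs_eq, Zs_eq, Zs_eq, ← s1.tsum_add s2, ← tsum_div_const]
    refine tsum_congr fun h => ?_
    rw [lc_smul, Real.cosh_eq]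
    ring_nf
  have e2 : ∑ a, J a * (Real.cosh (-1 * c a) - 1) = ∑ a, J a * (Real.cosh (c a) - 1) :=
    Finset.sum_congr rfl fun a _ => by rw [neg_one_mul, Real.cosh_neg]
  rw [e2] at h2
  rw [e1]
  linarith

lemma Zs_mono {M : (V → ℤ) → ℝ} (hM : PD M) (D : A → V → ℤ) {J : A → ℝ} (hJ : ∀ a, 0 ≤ J a)
    {F G : (V → ℤ) → ℝ} (hF : Summable fun h => wg M D J h * F h)
    (hG : Summable fun h => wg M D J h * G h) (hFG : ∀ h, F h ≤ G h) :
    Zs M D J F ≤ Zs M D J G := by
  rw [Zs_eq, Zs_eq]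
  exact hF.tsum_le_tsum (fun h => mul_le_mul_of_nonneg_left (hFG h) (wg_nonneg hM D hJ h)) hG

lemma Zs_nonneg {M : (V → ℤ) → ℝ} (hM : PD M) (D : A → V → ℤ) {J : A → ℝ} (hJ : ∀ a, 0 ≤ J a)
    {F : (V → ℤ) → ℝ} (hF : ∀ h, 0 ≤ F h) : 0 ≤ Zs M D J F := by
  rw [Zs_eq]
  exact tsum_nonneg fun h => mul_nonneg (wg_nonneg hM D hJ h) (hF h)


lemma one_add_sq_le_cosh (x : ℝ) : 1 + x ^ 2 / 2 ≤ Real.cosh x := by
  have h := sum_le_hasSum (Finset.range 2) (fun n _ => by
    have : 0 ≤ x ^ (2 * n) := by rw [pow_mul]; positivity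
    positivity) (Real.hasSum_cosh x)
  simpa [Finset.sum_range_succ, Nat.factorial] using h

lemma cosh_sub_one_le (x : ℝ) : Real.cosh x - 1 ≤ x ^ 2 / 2 * Real.cosh x := by
  -- `cosh x - 1 = 2 sinh (x/2)^2` and `sinh y ≤ y cosh y`
  have key : ∀ y : ℝ, 0 ≤ y → Real.sinh y ≤ y * Real.cosh y := by
    intro y hy
    have hd : ∀ z : ℝ, HasDerivAt (fun z => z * Real.cosh z - Real.sinh z)
        (z * Real.sinh z) z := by
      intro z
      have h1 := ((hasDerivAt_id' z).mul (Real.hasDerivAt_cosh z)).sub (Real.hasDerivAt_sinh z)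
      have e : 1 * Real.cosh z + z * Real.sinh z - Real.cosh z = z * Real.sinh z := by ring
      rw [e] at h1
      exact h1
    have hmono : MonotoneOn (fun z => z * Real.cosh z - Real.sinh z) (Set.Ici 0) := by
      refine monotoneOn_of_deriv_nonneg (convex_Ici 0)
        (fun z _ => (hd z).continuousAt.continuousWithinAt)
        (fun z _ => (hd z).differentiableAt.differentiableWithinAt) fun z hz => ?_
      rw [interior_Ici] at hz
      rw [(hd z).deriv]
      exact mul_nonneg (le_of_lt hz) (Real.sinh_nonneg_iff.2 (le_of_lt hz))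
    have := hmono (Set.self_mem_Ici) (Set.mem_Ici.2 hy) hy
    simp only [zero_mul, Real.sinh_zero, sub_zero] at this
    linarith
  have h2 : Real.cosh x - 1 = 2 * Real.sinh (x / 2) ^ 2 := by
    have := Real.cosh_two_mul (x / 2)
    have h3 := Real.cosh_sq (x / 2)
    rw [show 2 * (x / 2) = x by ring] at this
    linarith
  have h4 : Real.sinh (x / 2) ^ 2 ≤ (x / 2) ^ 2 * Real.cosh (x / 2) ^ 2 := by
    rw [← sq_abs (Real.sinh (x / 2)), Real.abs_sinh, ← mul_pow]
    have h5 := key |x / 2| (abs_nonneg _)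
    have h6 : 0 ≤ Real.sinh |x / 2| := Real.sinh_nonneg_iff.2 (abs_nonneg _)
    calc Real.sinh |x / 2| ^ 2 ≤ (|x / 2| * Real.cosh |x / 2|) ^ 2 := pow_le_pow_left₀ h6 h5 2
      _ = (x / 2 * Real.cosh (x / 2)) ^ 2 := by rw [Real.cosh_abs, mul_pow, sq_abs, mul_pow]
  have h7 : Real.cosh (x / 2) ^ 2 ≤ Real.cosh x := by
    have := Real.cosh_two_mul (x / 2)
    rw [show 2 * (x / 2) = x by ring] at this
    nlinarith [sq_nonneg (Real.sinh (x / 2))]
  rw [h2]
  have h8 : 0 ≤ (x / 2) ^ 2 := sq_nonneg _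
  nlinarith [mul_le_mul_of_nonneg_left h7 h8]

/-- **second moments**: at most those of independent currents -/
theorem bare_sq {M : (V → ℤ) → ℝ} (hM : PD M) (D : A → V → ℤ) {J : A → ℝ} (hJ : ∀ a, 0 ≤ J a)
    (c : A → ℝ) :
    Zs M D J (fun h => lc D c h ^ 2) ≤ (∑ a, J a * c a ^ 2) * Zs M D J (fun _ => 1) := by
  have b1 : ∀ h : V → ℤ, |(1 : ℝ)| ≤ 1 * Real.exp |lc D c h| := fun h => by
    rw [abs_one, one_mul]; exact Real.one_le_exp (abs_nonneg _)
  have b2 : ∀ h : V → ℤ, |lc D c h ^ 2| ≤ 2 * Real.exp |lc D c h| := fun h => by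
    rw [abs_of_nonneg (sq_nonneg _), ← sq_abs]
    have := Real.quadratic_le_exp_of_nonneg (abs_nonneg (lc D c h))
    nlinarith [abs_nonneg (lc D c h)]
  have s1 := summ_growth hM D hJ c b1
  have s2 := summ_growth hM D hJ c b2
  have key : ∀ t : ℝ, 0 < t → Zs M D J (fun h => lc D c h ^ 2) ≤
      (∑ a, J a * (c a ^ 2 * Real.cosh (t * c a))) *
        Real.exp (∑ a, J a * (Real.cosh (t * c a) - 1)) * Zs M D J (fun _ => 1) := by
    intro t ht
    have h1 := bare_cosh hM D hJ (fun a => t * c a)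
    have s3 : Summable fun h => wg M D J h * Real.cosh (lc D (fun a => t * c a) h) := by
      refine summ_growth hM D hJ (fun a => t * c a) (C := 1) fun h => ?_
      rw [abs_of_pos (Real.cosh_pos _), one_mul, ← Real.cosh_abs, Real.cosh_eq]
      have : Real.exp (-|lc D (fun a => t * c a) h|) ≤ Real.exp |lc D (fun a => t * c a) h| :=
        Real.exp_le_exp.2 (by linarith [abs_nonneg (lc D (fun a => t * c a) h)])
      linarith
    have h2 : Zs M D J (fun _ => 1) + t ^ 2 / 2 * Zs M D J (fun h => lc D c h ^ 2) ≤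
        Zs M D J (fun h => Real.cosh (lc D (fun a => t * c a) h)) := by
      have e : Zs M D J (fun _ => 1) + t ^ 2 / 2 * Zs M D J (fun h => lc D c h ^ 2) =
          Zs M D J (fun h => 1 + t ^ 2 / 2 * lc D c h ^ 2) := by
        rw [Zs_eq, Zs_eq, Zs_eq, ← tsum_mul_left, ← s1.tsum_add (s2.mul_left _)]
        exact tsum_congr fun h => by ring
      rw [e]
      refine Zs_mono hM D hJ ?_ s3 fun h => ?_
      · refine (s1.add (s2.mul_left (t ^ 2 / 2))).congr fun h => ?_
        ring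
      · rw [lc_smul]
        have := one_add_sq_le_cosh (t * lc D c h)
        nlinarith
    set S := ∑ a, J a * (Real.cosh (t * c a) - 1) with hS
    have hZ : 0 ≤ Zs M D J (fun _ => 1) := Zs_nonneg hM D hJ fun _ => zero_le_one
    have h3 : Real.exp S - 1 ≤ S * Real.exp S := by
      have := Real.add_one_le_exp (-S)
      have h4 : Real.exp S * Real.exp (-S) = 1 := by rw [← Real.exp_add, add_neg_cancel, Real.exp_zero]
      nlinarith [Real.exp_pos S]
    have h5 : S ≤ t ^ 2 / 2 * ∑ a, J a * (c a ^ 2 * Real.cosh (t * c a)) := by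
      rw [hS, Finset.mul_sum]
      refine Finset.sum_le_sum fun a _ => ?_
      have := cosh_sub_one_le (t * c a)
      have := mul_le_mul_of_nonneg_left this (hJ a)
      calc _ ≤ _ := this
        _ = _ := by ring
    have h6 : t ^ 2 / 2 * Zs M D J (fun h => lc D c h ^ 2) ≤
        (t ^ 2 / 2 * ∑ a, J a * (c a ^ 2 * Real.cosh (t * c a))) * Real.exp S *
          Zs M D J (fun _ => 1) := by
      have h7 : (Real.exp S - 1) * Zs M D J (fun _ => 1) ≤
          (t ^ 2 / 2 * ∑ a, J a * (c a ^ 2 * Real.cosh (t * c a))) * Real.exp S *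
            Zs M D J (fun _ => 1) :=
        mul_le_mul_of_nonneg_right (h3.trans
          (mul_le_mul_of_nonneg_right h5 (Real.exp_pos _).le)) hZ
      linarith
    have ht2 : 0 < t ^ 2 / 2 := by positivity
    refine le_of_mul_le_mul_left ?_ ht2
    calc _ ≤ _ := h6
      _ = _ := by ring
  have hcont : Continuous fun t : ℝ => (∑ a, J a * (c a ^ 2 * Real.cosh (t * c a))) *
        Real.exp (∑ a, J a * (Real.cosh (t * c a) - 1)) * Zs M D J (fun _ => 1) := by
    have h1 : ∀ a, Continuous fun t : ℝ => Real.cosh (t * c a) := fun a =>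
      Real.continuous_cosh.comp (by fun_prop)
    refine Continuous.mul (Continuous.mul ?_ ?_) continuous_const
    · exact continuous_finsetSum _ fun a _ => continuous_const.mul (continuous_const.mul (h1 a))
    · exact Real.continuous_exp.comp (continuous_finsetSum _ fun a _ =>
        continuous_const.mul ((h1 a).sub continuous_const))
  have hlim := (hcont.tendsto 0).mono_left (nhdsWithin_le_nhds (s := Set.Ioi 0))
  have h9 := ge_of_tendsto hlim (by
    filter_upwards [self_mem_nhdsWithin] with t ht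
    exact key t ht)
  simpa using h9

/-! ### flows -/

lemma add_pow_super {s t : ℝ} (hs : 0 ≤ s) (ht : 0 ≤ t) :
    ∀ k : ℕ, s ^ k + t ^ k ≤ (s + t) ^ k + if k = 0 then 1 else 0 := by
  intro k
  rcases k with _ | k
  · simp
  · rw [if_neg (Nat.succ_ne_zero k), add_zero]
    induction k with
    | zero => simp
    | succ k ih =>
      have h1 := mul_le_mul_of_nonneg_left ih (add_nonneg hs ht)
      have h2 : 0 ≤ s * t ^ (k + 1) := mul_nonneg hs (pow_nonneg ht _)
      have h3 : 0 ≤ t * s ^ (k + 1) := mul_nonneg ht (pow_nonneg hs _)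
      calc s ^ (k + 1 + 1) + t ^ (k + 1 + 1) ≤ (s + t) * (s ^ (k + 1) + t ^ (k + 1)) := by
            rw [pow_succ s (k + 1), pow_succ t (k + 1)]; nlinarith
        _ ≤ (s + t) * (s + t) ^ (k + 1) := h1
        _ = _ := by ring

lemma cosh_sqrt_hasSum {u : ℝ} (hu : 0 ≤ u) :
    HasSum (fun k : ℕ => u ^ k / ((2 * k).factorial : ℝ)) (Real.cosh √u) := by
  have h := Real.hasSum_cosh √u
  have e : (fun n : ℕ => √u ^ (2 * n) / ((2 * n).factorial : ℝ)) =
      fun k : ℕ => u ^ k / ((2 * k).factorial : ℝ) := by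
    funext n
    rw [pow_mul, Real.sq_sqrt hu]
  rwa [e] at h

lemma cosh_sqrt_add {s t : ℝ} (hs : 0 ≤ s) (ht : 0 ≤ t) :
    (Real.cosh √s - 1) + (Real.cosh √t - 1) ≤ Real.cosh √(s + t) - 1 := by
  have h1 := (cosh_sqrt_hasSum hs).add (cosh_sqrt_hasSum ht)
  have h2 := (cosh_sqrt_hasSum (add_nonneg hs ht)).add
    (hasSum_ite_eq (0 : ℕ) (1 : ℝ))
  have h3 := hasSum_le (fun k => ?_) h1 h2
  · linarith
  · rw [← add_div]
    have h4 := add_pow_super hs ht k
    have h5 : (1 : ℝ) ≤ ((2 * k).factorial : ℝ) := by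
      exact_mod_cast Nat.one_le_iff_ne_zero.2 (Nat.factorial_ne_zero _)
    by_cases hk : k = 0
    · subst hk
      simp
    · rw [if_neg hk, add_zero] at h4
      rw [if_neg hk, add_zero]
      exact div_le_div_of_nonneg_right h4 (by linarith)

/-- independent currents of total energy `K` cost at most as much as one current -/
lemma sum_cosh_le {ι : Type*} (s : Finset ι) (x : ι → ℝ) :
    ∑ a ∈ s, (Real.cosh (x a) - 1) ≤ Real.cosh √(∑ a ∈ s, x a ^ 2) - 1 := by
  classical
  induction s using Finset.induction_on with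
  | empty => simp
  | insert a s ha ih =>
    rw [Finset.sum_insert ha, Finset.sum_insert ha]
    have h1 := cosh_sqrt_add (sq_nonneg (x a)) (Finset.sum_nonneg fun b (_ : b ∈ s) =>
      sq_nonneg (x b))
    rw [Real.sqrt_sq_eq_abs, Real.cosh_abs] at h1
    linarith

/-- **flows**: a functional dominated by the Dirichlet energy is the divergence of a flow -/
theorem exists_flow (D : A → V → ℤ) (X : Set V) (g : V → ℝ) {K : ℝ}
    (h : ∀ φ : V → ℝ, (∀ x ∈ X, φ x = 0) →
      (∑ x, g x * φ x) ^ 2 ≤ K * ∑ a, (∑ x, D a x * φ x) ^ 2) (hK : 0 ≤ K) :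
    ∃ c : A → ℝ, ∑ a, c a ^ 2 ≤ K ∧ ∀ φ : V → ℝ, (∀ x ∈ X, φ x = 0) →
      ∑ x, g x * φ x = ∑ a, c a * ∑ x, D a x * φ x := by
  classical
  -- functions vanishing on `X`
  let S : Submodule ℝ (V → ℝ) :=
    { carrier := {φ | ∀ x ∈ X, φ x = 0}
      zero_mem' := fun x _ => rfl
      add_mem' := fun {a b} ha hb x hx => by
        show a x + b x = 0
        rw [ha x hx, hb x hx, add_zero]
      smul_mem' := fun r a ha x hx => by
        show r * a x = 0
        rw [ha x hx, mul_zero] }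
  let L0 : (V → ℝ) →ₗ[ℝ] EuclideanSpace ℝ A :=
    { toFun := fun φ => WithLp.toLp 2 fun a => ∑ x, D a x * φ x
      map_add' := fun a b => by
        ext i
        simp [mul_add, Finset.sum_add_distrib]
      map_smul' := fun r a => by
        ext i
        simp [Finset.mul_sum]
        exact Finset.sum_congr rfl fun x _ => by ring }
  let G0 : (V → ℝ) →ₗ[ℝ] ℝ :=
    { toFun := fun φ => ∑ x, g x * φ x
      map_add' := fun a b => by simp [mul_add, Finset.sum_add_distrib]
      map_smul' := fun r a => by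
        simp [Finset.mul_sum]
        exact Finset.sum_congr rfl fun x _ => by ring }
  let L : S →ₗ[ℝ] EuclideanSpace ℝ A := L0.comp S.subtype
  let G : S →ₗ[ℝ] ℝ := G0.comp S.subtype
  have hbd : ∀ φ : S, G φ ^ 2 ≤ K * ‖L φ‖ ^ 2 := by
    intro φ
    have h1 := h φ.1 φ.2
    have h2 : ‖L φ‖ ^ 2 = ∑ a, (∑ x, D a x * φ.1 x) ^ 2 := by
      rw [EuclideanSpace.norm_sq_eq]
      exact Finset.sum_congr rfl fun a _ => by rw [Real.norm_eq_abs, sq_abs]; rfl
    rw [h2]
    exact h1
  obtain ⟨s, hs⟩ := L.rangeRestrict.exists_rightInverse_of_surjective L.range_rangeRestrict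
  let ℓ : LinearMap.range L →ₗ[ℝ] ℝ := G.comp s
  have hℓ : ∀ φ : S, ℓ (L.rangeRestrict φ) = G φ := by
    intro φ
    have h1 : L (φ - s (L.rangeRestrict φ)) = 0 := by
      have h2 : L.rangeRestrict (s (L.rangeRestrict φ)) = L.rangeRestrict φ := by
        have := LinearMap.congr_fun hs (L.rangeRestrict φ)
        exact this
      have h3 : L (s (L.rangeRestrict φ)) = L φ := congrArg Subtype.val h2
      rw [map_sub, h3, sub_self]
    have h2 := hbd (φ - s (L.rangeRestrict φ))
    rw [h1, norm_zero] at h2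
    have h3 : G (φ - s (L.rangeRestrict φ)) = 0 := by
      have : G (φ - s (L.rangeRestrict φ)) ^ 2 ≤ 0 := by simpa using h2
      exact pow_eq_zero_iff (two_ne_zero) |>.1 (le_antisymm this (sq_nonneg _))
    rw [map_sub] at h3
    show G (s (L.rangeRestrict φ)) = G φ
    linarith
  have hℓb : ∀ w, ℓ w ^ 2 ≤ K * ‖w‖ ^ 2 := by
    intro w
    obtain ⟨φ, hφ⟩ := L.surjective_rangeRestrict w
    rw [← hφ, hℓ φ]
    exact hbd φ
  set v : LinearMap.range L := (InnerProductSpace.toDual ℝ (LinearMap.range L)).symm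
    (LinearMap.toContinuousLinearMap ℓ) with hv
  have hvi : ∀ w, Inner.inner ℝ v w = ℓ w := by
    intro w
    rw [hv, InnerProductSpace.toDual_symm_apply]
    rfl
  have hvn : ‖v‖ ^ 2 ≤ K := by
    have h1 := hℓb v
    rw [← hvi v, real_inner_self_eq_norm_sq] at h1
    by_cases hv0 : ‖v‖ ^ 2 = 0
    · rw [hv0]; exact hK
    · have h2 : 0 < ‖v‖ ^ 2 := lt_of_le_of_ne (sq_nonneg _) (Ne.symm hv0)
      nlinarith
  refine ⟨fun a => (v : EuclideanSpace ℝ A) a, ?_, fun φ hφ => ?_⟩
  · have h2 : ‖v‖ ^ 2 = ∑ a, ((v : EuclideanSpace ℝ A) a) ^ 2 := by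
      rw [← Submodule.norm_coe, EuclideanSpace.norm_sq_eq]
      exact Finset.sum_congr rfl fun a _ => by rw [Real.norm_eq_abs, sq_abs]
    rw [← h2]
    exact hvn
  · have h1 := hℓ ⟨φ, hφ⟩
    rw [← hvi] at h1
    have h2 : G ⟨φ, hφ⟩ = ∑ x, g x * φ x := rfl
    rw [← h2, ← h1, Submodule.coe_inner]
    rw [PiLp.inner_apply]
    refine Finset.sum_congr rfl fun a _ => ?_
    show (∑ x, (D a x : ℝ) * φ x) * (v : EuclideanSpace ℝ A) a = _
    ring


lemma lc_eq (D : A → V → ℤ) (c : A → ℝ) (h : V → ℤ) :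
    lc D c h = ∑ a, c a * ∑ x, D a x * (h x : ℝ) := by
  unfold lc nn
  exact Finset.sum_congr rfl fun a _ => by push_cast; rfl

/-- **Bare domination, energy form.** If `⟨g, φ⟩² ≤ K ∑ (Dφ)²` for all `φ` vanishing on `X`, the
heights vanish on `X` and the couplings are at most `b`, then the exponential moments of `⟨g, h⟩`
are at most `exp (b (cosh (t √K) - 1))`. -/
theorem bare_energy {M : (V → ℤ) → ℝ} (hM : PD M) (D : A → V → ℤ) {J : A → ℝ}
    (hJ : ∀ a, 0 ≤ J a) {b : ℝ} (hb : ∀ a, J a ≤ b) (hb0 : 0 ≤ b) {X : Set V}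
    (hX : ∀ h, M h ≠ 0 → ∀ x ∈ X, h x = 0) {g : V → ℝ} {K : ℝ} (hK : 0 ≤ K)
    (hg : ∀ φ : V → ℝ, (∀ x ∈ X, φ x = 0) →
      (∑ x, g x * φ x) ^ 2 ≤ K * ∑ a, (∑ x, D a x * φ x) ^ 2) (t : ℝ) :
    Zs M D J (fun h => Real.exp (t * ip g h)) ≤
      Real.exp (b * (Real.cosh (t * √K) - 1)) * Zs M D J (fun _ => 1) := by
  obtain ⟨c, hc, hc2⟩ := exists_flow D X g hg hK
  have e1 : Zs M D J (fun h => Real.exp (t * ip g h)) =
      Zs M D J (fun h => Real.exp (lc D (fun a => t * c a) h)) := by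
    rw [Zs_eq, Zs_eq]
    refine tsum_congr fun h => ?_
    by_cases h0 : M h = 0
    · unfold wg
      rw [h0, zero_mul, zero_mul, zero_mul]
    · have h1 := hc2 (fun x => (h x : ℝ)) fun x hx => by
        rw [hX h h0 x hx, Int.cast_zero]
      rw [lc_smul, lc_eq, ← h1]
      rfl
  rw [e1]
  refine (bare_exp hM D hJ _).trans ?_
  have hZ : 0 ≤ Zs M D J (fun _ => 1) := Zs_nonneg hM D hJ fun _ => zero_le_one
  refine mul_le_mul_of_nonneg_right (Real.exp_le_exp.2 ?_) hZ
  calc ∑ a, J a * (Real.cosh (t * c a) - 1) ≤ ∑ a, b * (Real.cosh (t * c a) - 1) :=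
        Finset.sum_le_sum fun a _ => mul_le_mul_of_nonneg_right (hb a)
          (by linarith [Real.one_le_cosh (t * c a)])
    _ = b * ∑ a, (Real.cosh (t * c a) - 1) := by rw [Finset.mul_sum]
    _ ≤ b * (Real.cosh (t * √K) - 1) := by
        refine mul_le_mul_of_nonneg_left ?_ hb0
        refine (sum_cosh_le Finset.univ fun a => t * c a).trans ?_
        have h2 : ∑ a, (t * c a) ^ 2 ≤ (t * √K) ^ 2 := by
          rw [mul_pow, Real.sq_sqrt hK]
          calc ∑ a, (t * c a) ^ 2 = t ^ 2 * ∑ a, c a ^ 2 := by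
                rw [Finset.mul_sum]
                exact Finset.sum_congr rfl fun a _ => by ring
            _ ≤ _ := mul_le_mul_of_nonneg_left hc (sq_nonneg _)
        have h3 : Real.cosh √(∑ a, (t * c a) ^ 2) ≤ Real.cosh (t * √K) := by
          rw [Real.cosh_le_cosh, abs_of_nonneg (Real.sqrt_nonneg _), ← Real.sqrt_sq_eq_abs]
          exact Real.sqrt_le_sqrt h2
        linarith

/-- variance form: `Var ⟨g, h⟩ ≤ b K` -/
theorem bare_var {M : (V → ℤ) → ℝ} (hM : PD M) (D : A → V → ℤ) {J : A → ℝ}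
    (hJ : ∀ a, 0 ≤ J a) {b : ℝ} (hb : ∀ a, J a ≤ b) {X : Set V}
    (hX : ∀ h, M h ≠ 0 → ∀ x ∈ X, h x = 0) {g : V → ℝ} {K : ℝ} (hK : 0 ≤ K)
    (hg : ∀ φ : V → ℝ, (∀ x ∈ X, φ x = 0) →
      (∑ x, g x * φ x) ^ 2 ≤ K * ∑ a, (∑ x, D a x * φ x) ^ 2) (hb0 : 0 ≤ b) :
    Zs M D J (fun h => ip g h ^ 2) ≤ b * K * Zs M D J (fun _ => 1) := by
  obtain ⟨c, hc, hc2⟩ := exists_flow D X g hg hK
  have e1 : Zs M D J (fun h => ip g h ^ 2) = Zs M D J (fun h => lc D c h ^ 2) := by
    rw [Zs_eq, Zs_eq]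
    refine tsum_congr fun h => ?_
    by_cases h0 : M h = 0
    · unfold wg
      rw [h0, zero_mul, zero_mul, zero_mul]
    · have h1 := hc2 (fun x => (h x : ℝ)) fun x hx => by
        rw [hX h h0 x hx, Int.cast_zero]
      rw [lc_eq, ← h1]
      rfl
  rw [e1]
  refine (bare_sq hM D hJ c).trans ?_
  have hZ : 0 ≤ Zs M D J (fun _ => 1) := Zs_nonneg hM D hJ fun _ => zero_le_one
  refine mul_le_mul_of_nonneg_right ?_ hZ
  calc ∑ a, J a * c a ^ 2 ≤ ∑ a, b * c a ^ 2 :=
        Finset.sum_le_sum fun a _ => mul_le_mul_of_nonneg_right (hb a) (sq_nonneg _)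
    _ = b * ∑ a, c a ^ 2 := by rw [Finset.mul_sum]
    _ ≤ b * K := mul_le_mul_of_nonneg_left hc hb0

/-! ### summability and moments of `⟨g, h⟩` -/

/-- sum of a nonnegative functional of exponential growth in `⟨g, h⟩` -/
lemma summ_ip {M : (V → ℤ) → ℝ} (hM : PD M) (D : A → V → ℤ) {J : A → ℝ}
    (hJ : ∀ a, 0 ≤ J a) {X : Set V} (hX : ∀ h, M h ≠ 0 → ∀ x ∈ X, h x = 0) {g : V → ℝ} {K : ℝ}
    (hK : 0 ≤ K) (hg : ∀ φ : V → ℝ, (∀ x ∈ X, φ x = 0) →
      (∑ x, g x * φ x) ^ 2 ≤ K * ∑ a, (∑ x, D a x * φ x) ^ 2) {F : (V → ℤ) → ℝ} {C t : ℝ}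
    (hF : ∀ h, |F h| ≤ C * Real.exp (t * |ip g h|)) (ht : 0 ≤ t) :
    Summable fun h => wg M D J h * F h := by
  obtain ⟨c, hc, hc2⟩ := exists_flow D X g hg hK
  have key : ∀ h, wg M D J h ≠ 0 → ip g h = lc D c h := by
    intro h h0
    have h1 := hc2 (fun x => (h x : ℝ)) fun x hx => by
      rw [hX h (fun h2 => h0 (by unfold wg; rw [h2, zero_mul])) x hx, Int.cast_zero]
    rw [lc_eq, ← h1]
    rfl
  have h2 := summ_growth hM D hJ (fun a => t * c a)
    (F := fun h => if wg M D J h = 0 then 0 else F h) (C := |C|) fun h => by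
      by_cases h0 : wg M D J h = 0
      · rw [if_pos h0, abs_zero]; positivity
      · rw [if_neg h0, lc_smul, abs_mul, abs_of_nonneg ht, ← key h h0]
        exact (hF h).trans (mul_le_mul_of_nonneg_right (le_abs_self C) (Real.exp_pos _).le)
  refine h2.congr fun h => ?_
  by_cases h0 : wg M D J h = 0
  · rw [h0, zero_mul, zero_mul]
  · rw [if_neg h0]

/-- **even moments** -/
theorem bare_moment {M : (V → ℤ) → ℝ} (hM : PD M) (D : A → V → ℤ) {J : A → ℝ}
    (hJ : ∀ a, 0 ≤ J a) {b : ℝ} (hb : ∀ a, J a ≤ b) (hb0 : 0 ≤ b) {X : Set V}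
    (hX : ∀ h, M h ≠ 0 → ∀ x ∈ X, h x = 0) {g : V → ℝ} {K : ℝ} (hK : 0 < K)
    (hg : ∀ φ : V → ℝ, (∀ x ∈ X, φ x = 0) →
      (∑ x, g x * φ x) ^ 2 ≤ K * ∑ a, (∑ x, D a x * φ x) ^ 2) (k : ℕ) :
    Zs M D J (fun h => ip g h ^ (2 * k)) ≤
      (2 * k).factorial * K ^ k * Real.exp (b * (Real.cosh 1 - 1)) * Zs M D J (fun _ => 1) := by
  have hs : 0 < √K := Real.sqrt_pos.2 hK
  set t : ℝ := (√K)⁻¹ with ht
  have ht0 : 0 < t := inv_pos.2 hs
  have h1 := bare_energy hM D hJ hb hb0 hX hK.le hg t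
  have h2 := bare_energy hM D hJ hb hb0 hX hK.le hg (-t)
  rw [ht, inv_mul_cancel₀ hs.ne'] at h1
  rw [ht, neg_mul, inv_mul_cancel₀ hs.ne', Real.cosh_neg, ← ht] at h2
  rw [← ht] at h1
  have hF : ∀ (σ : ℝ), |σ| ≤ t → Summable fun h => wg M D J h * Real.exp (σ * ip g h) := by
    intro σ hσ
    refine summ_ip hM D hJ hX hK.le hg (C := 1) (t := t) (fun h => ?_) ht0.le
    rw [abs_of_pos (Real.exp_pos _), one_mul]
    refine Real.exp_le_exp.2 ?_
    calc σ * ip g h ≤ |σ * ip g h| := le_abs_self _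
      _ = |σ| * |ip g h| := abs_mul _ _
      _ ≤ t * |ip g h| := mul_le_mul_of_nonneg_right hσ (abs_nonneg _)
  have s1 := hF t (by rw [abs_of_pos ht0])
  have s2 := hF (-t) (by rw [abs_neg, abs_of_pos ht0])
  have pt : ∀ h, ip g h ^ (2 * k) ≤ (2 * k).factorial * K ^ k *
      ((Real.exp (t * ip g h) + Real.exp (-t * ip g h)) / 2) := by
    intro h
    have h3 : (t * ip g h) ^ (2 * k) / ((2 * k).factorial : ℝ) ≤ Real.cosh (t * ip g h) :=
      le_hasSum (Real.hasSum_cosh (t * ip g h)) k fun n _ => by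
        have : 0 ≤ (t * ip g h) ^ (2 * n) := by rw [pow_mul]; positivity
        positivity
    rw [Real.cosh_eq] at h3
    have hf : (0 : ℝ) < ((2 * k).factorial : ℝ) := by exact_mod_cast Nat.factorial_pos _
    rw [div_le_iff₀ hf] at h3
    have h4 : K ^ k * (t * ip g h) ^ (2 * k) = ip g h ^ (2 * k) := by
      rw [mul_pow, pow_mul t, ht, inv_pow, Real.sq_sqrt hK.le, inv_pow, ← mul_assoc,
        mul_inv_cancel₀ (pow_pos hK k).ne', one_mul]
    have h5 := mul_le_mul_of_nonneg_left h3 (pow_pos hK k).le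
    rw [h4] at h5
    calc _ ≤ _ := h5
      _ = _ := by rw [neg_mul]; ring
  have hsum : Zs M D J (fun h => (2 * k).factorial * K ^ k *
      ((Real.exp (t * ip g h) + Real.exp (-t * ip g h)) / 2)) =
      (2 * k).factorial * K ^ k * ((Zs M D J (fun h => Real.exp (t * ip g h)) +
        Zs M D J (fun h => Real.exp (-t * ip g h))) / 2) := by
    rw [Zs_eq, Zs_eq, Zs_eq, ← s1.tsum_add s2, ← tsum_div_const, ← tsum_mul_left]
    exact tsum_congr fun h => by ring
  have hle : Zs M D J (fun h => ip g h ^ (2 * k)) ≤ Zs M D J (fun h => (2 * k).factorial * K ^ k *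
      ((Real.exp (t * ip g h) + Real.exp (-t * ip g h)) / 2)) := by
    have s3 : Summable fun h => wg M D J h * ((2 * k).factorial * K ^ k *
      ((Real.exp (t * ip g h) + Real.exp (-t * ip g h)) / 2)) := by
      refine (((s1.add s2).mul_left ((2 * k).factorial * K ^ k / 2))).congr fun h => ?_
      ring
    refine Zs_mono hM D hJ ?_ s3 pt
    refine Summable.of_nonneg_of_le (fun h => mul_nonneg (wg_nonneg hM D hJ h)
      (by rw [pow_mul]; positivity)) (fun h => ?_) s3
    exact mul_le_mul_of_nonneg_left (pt h) (wg_nonneg hM D hJ h)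
  rw [hsum] at hle
  refine hle.trans ?_
  have h6 : (0 : ℝ) ≤ (2 * k).factorial * K ^ k := by positivity
  calc _ ≤ (2 * k).factorial * K ^ k * ((Real.exp (b * (Real.cosh 1 - 1)) * Zs M D J (fun _ => 1) +
        Real.exp (b * (Real.cosh 1 - 1)) * Zs M D J (fun _ => 1)) / 2) := by
        refine mul_le_mul_of_nonneg_left ?_ h6
        linarith
    _ = _ := by ring

open Classical in
/-- **tails** -/
theorem bare_tail {M : (V → ℤ) → ℝ} (hM : PD M) (D : A → V → ℤ) {J : A → ℝ}
    (hJ : ∀ a, 0 ≤ J a) {b : ℝ} (hb : ∀ a, J a ≤ b) (hb0 : 0 ≤ b) {X : Set V}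
    (hX : ∀ h, M h ≠ 0 → ∀ x ∈ X, h x = 0) {g : V → ℝ} {K : ℝ} (hK : 0 ≤ K)
    (hg : ∀ φ : V → ℝ, (∀ x ∈ X, φ x = 0) →
      (∑ x, g x * φ x) ^ 2 ≤ K * ∑ a, (∑ x, D a x * φ x) ^ 2) {t : ℝ} (ht : 0 ≤ t) (u : ℝ) :
    Zs M D J (fun h => if u ≤ |ip g h| then 1 else 0) ≤
      2 * Real.exp (b * (Real.cosh (t * √K) - 1) - t * u) * Zs M D J (fun _ => 1) := by
  have h1 := bare_energy hM D hJ hb hb0 hX hK hg t
  have h2 := bare_energy hM D hJ hb hb0 hX hK hg (-t)
  rw [neg_mul, Real.cosh_neg] at h2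
  have hF : ∀ (σ : ℝ), |σ| ≤ t → Summable fun h => wg M D J h * Real.exp (σ * ip g h) := by
    intro σ hσ
    refine summ_ip hM D hJ hX hK hg (C := 1) (t := t) (fun h => ?_) ht
    rw [abs_of_pos (Real.exp_pos _), one_mul]
    refine Real.exp_le_exp.2 ?_
    calc σ * ip g h ≤ |σ * ip g h| := le_abs_self _
      _ = |σ| * |ip g h| := abs_mul _ _
      _ ≤ t * |ip g h| := mul_le_mul_of_nonneg_right hσ (abs_nonneg _)
  have s1 := hF t (by rw [abs_of_nonneg ht])
  have s2 := hF (-t) (by rw [abs_neg, abs_of_nonneg ht])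
  have pt : ∀ h, (if u ≤ |ip g h| then (1 : ℝ) else 0) ≤
      Real.exp (-(t * u)) * (Real.exp (t * ip g h) + Real.exp (-t * ip g h)) := by
    intro h
    split_ifs with h3
    · have h4 : Real.exp (t * u) ≤ Real.exp (t * ip g h) + Real.exp (-t * ip g h) := by
        have h5 : Real.exp (t * u) ≤ Real.exp (t * |ip g h|) :=
          Real.exp_le_exp.2 (mul_le_mul_of_nonneg_left h3 ht)
        rcases abs_choice (ip g h) with h6 | h6
        · rw [h6] at h5
          linarith [Real.exp_pos (-t * ip g h)]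
        · rw [h6, mul_neg, ← neg_mul] at h5
          linarith [Real.exp_pos (t * ip g h)]
      rw [Real.exp_neg, ← div_eq_inv_mul, le_div_iff₀ (Real.exp_pos _), one_mul]
      exact h4
    · positivity
  have s3 : Summable fun h => wg M D J h *
      (Real.exp (-(t * u)) * (Real.exp (t * ip g h) + Real.exp (-t * ip g h))) := by
    refine (((s1.add s2).mul_left (Real.exp (-(t * u))))).congr fun h => ?_
    ring
  have hle : Zs M D J (fun h => if u ≤ |ip g h| then 1 else 0) ≤ Zs M D J (fun h =>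
      Real.exp (-(t * u)) * (Real.exp (t * ip g h) + Real.exp (-t * ip g h))) := by
    refine Zs_mono hM D hJ ?_ s3 pt
    refine Summable.of_nonneg_of_le (fun h => mul_nonneg (wg_nonneg hM D hJ h)
      (by split_ifs <;> norm_num)) (fun h => ?_) s3
    exact mul_le_mul_of_nonneg_left (pt h) (wg_nonneg hM D hJ h)
  have hsum : Zs M D J (fun h =>
      Real.exp (-(t * u)) * (Real.exp (t * ip g h) + Real.exp (-t * ip g h))) =
      Real.exp (-(t * u)) * (Zs M D J (fun h => Real.exp (t * ip g h)) +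
        Zs M D J (fun h => Real.exp (-t * ip g h))) := by
    rw [Zs_eq, Zs_eq, Zs_eq, ← s1.tsum_add s2, ← tsum_mul_left]
    exact tsum_congr fun h => by ring
  rw [hsum] at hle
  refine hle.trans ?_
  have h6 : 0 ≤ Real.exp (-(t * u)) := (Real.exp_pos _).le
  calc _ ≤ Real.exp (-(t * u)) * (Real.exp (b * (Real.cosh (t * √K) - 1)) * Zs M D J (fun _ => 1) +
        Real.exp (b * (Real.cosh (t * √K) - 1)) * Zs M D J (fun _ => 1)) := by
        refine mul_le_mul_of_nonneg_left ?_ h6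
        linarith
    _ = _ := by
        have e7 : Real.exp (b * (Real.cosh (t * √K) - 1) - t * u) =
            Real.exp (-(t * u)) * Real.exp (b * (Real.cosh (t * √K) - 1)) := by
          rw [← Real.exp_add]
          congr 1
          ring
        rw [e7]
        ring


/-! ### product weights: masses and pinned sites -/

/-- positive definite weight of one height -/
structure PD1 (S : ℤ → ℝ) : Prop where
  nonneg : ∀ n, 0 ≤ S n
  even : ∀ n, S (-n) = S n
  summ : Summable S
  pos : ∀ φ : ℝ, 0 ≤ ∑' n, S n * Real.cos (φ * n)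

lemma cexp_sum1 {S : ℤ → ℝ} (hS : PD1 S) (φ : ℝ) :
    ∑' n, (S n : ℂ) * Complex.exp (Complex.I * (φ * n : ℝ)) =
      ((∑' n, S n * Real.cos (φ * n) : ℝ) : ℂ) := by
  have hb : ∀ n : ℤ, |S n * Real.sin (φ * n)| ≤ S n := fun n => by
    rw [abs_mul, abs_of_nonneg (hS.nonneg n)]
    exact mul_le_of_le_one_right (hS.nonneg n) (Real.abs_sin_le_one _)
  have hs : Summable fun n : ℤ => S n * Real.sin (φ * n) :=
    (Summable.of_nonneg_of_le (fun h => abs_nonneg _) hb hS.summ).of_abs
  have hb' : ∀ n : ℤ, |S n * Real.cos (φ * n)| ≤ S n := fun n => by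
    rw [abs_mul, abs_of_nonneg (hS.nonneg n)]
    exact mul_le_of_le_one_right (hS.nonneg n) (Real.abs_cos_le_one _)
  have hc : Summable fun n : ℤ => S n * Real.cos (φ * n) :=
    (Summable.of_nonneg_of_le (fun h => abs_nonneg _) hb' hS.summ).of_abs
  have h0 : ∑' n : ℤ, S n * Real.sin (φ * n) = 0 := by
    have h1 : ∑' n : ℤ, S n * Real.sin (φ * n) = ∑' n : ℤ, -(S n * Real.sin (φ * n)) := by
      rw [← (Equiv.neg ℤ).tsum_eq (fun n : ℤ => S n * Real.sin (φ * n))]
      refine tsum_congr fun n => ?_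
      show S (-n) * Real.sin (φ * ((-n : ℤ) : ℝ)) = _
      rw [hS.even, Int.cast_neg, mul_neg, Real.sin_neg]
      ring
    rw [tsum_neg] at h1
    linarith
  have e : ∀ n : ℤ, (S n : ℂ) * Complex.exp (Complex.I * (φ * n : ℝ)) =
      ((S n * Real.cos (φ * n) : ℝ) : ℂ) + Complex.I * ((S n * Real.sin (φ * n) : ℝ) : ℂ) := by
    intro n
    rw [mul_comm Complex.I, Complex.exp_mul_I, ← Complex.ofReal_cos, ← Complex.ofReal_sin]
    push_cast
    ring
  have hcC : Summable fun n : ℤ => ((S n * Real.cos (φ * n) : ℝ) : ℂ) := by exact_mod_cast hc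
  have hsC : Summable fun n : ℤ => ((S n * Real.sin (φ * n) : ℝ) : ℂ) := by exact_mod_cast hs
  rw [tsum_congr e, hcC.tsum_add (hsC.mul_left _), tsum_mul_left, ← Complex.ofReal_tsum,
    ← Complex.ofReal_tsum, h0]
  simp

/-- **products of one-site weights are positive definite** -/
theorem PD.prod {S : V → ℤ → ℝ} (hS : ∀ x, PD1 (S x)) : PD fun h : V → ℤ => ∏ x, S x (h x) := by
  have hsa : ∀ x, Summable fun n => ‖(S x n : ℂ)‖ := fun x =>
    (hS x).summ.congr fun n => by
      rw [Complex.norm_real, Real.norm_eq_abs, abs_of_nonneg ((hS x).nonneg n)]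
  have h1 := prod_tsum_all ℤ V (fun x n => (S x n : ℂ)) hsa
  have h1s : Summable fun h : V → ℤ => ∏ x, S x (h x) := by
    refine h1.1.congr fun h => ?_
    rw [← Complex.ofReal_prod, Complex.norm_real, Real.norm_eq_abs,
      abs_of_nonneg (Finset.prod_nonneg fun x _ => (hS x).nonneg _)]
  refine ⟨fun h => Finset.prod_nonneg fun x _ => (hS x).nonneg _, fun h => ?_, h1s, fun φ => ?_⟩
  · exact Finset.prod_congr rfl fun x _ => (hS x).even _
  · have hsb : ∀ x, Summable fun n : ℤ => ‖(S x n : ℂ) * Complex.exp (Complex.I * (φ x * n : ℝ))‖ :=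
      fun x => (hsa x).congr fun n => by
        rw [norm_mul, mul_comm Complex.I, Complex.norm_exp_ofReal_mul_I, mul_one]
    have h2 := prod_tsum_all ℤ V
      (fun x n => (S x n : ℂ) * Complex.exp (Complex.I * (φ x * n : ℝ))) hsb
    have h3 := h2.2
    simp only [fun x => cexp_sum1 (hS x) (φ x)] at h3
    have h4 : ∀ h : V → ℤ, ∏ x, ((S x (h x) : ℂ) * Complex.exp (Complex.I * (φ x * h x : ℝ))) =
        ((∏ x, S x (h x) : ℝ) : ℂ) * Complex.exp (((ip φ h : ℝ) : ℂ) * Complex.I) := by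
      intro h
      rw [Finset.prod_mul_distrib, ← Complex.exp_sum]
      congr 1
      · push_cast; rfl
      · congr 1
        unfold ip
        push_cast
        rw [Finset.sum_mul]
        exact Finset.sum_congr rfl fun x _ => by ring
    rw [tsum_congr h4, ← Complex.ofReal_prod] at h3
    have hsm : Summable fun h : V → ℤ =>
        ((∏ x, S x (h x) : ℝ) : ℂ) * Complex.exp (((ip φ h : ℝ) : ℂ) * Complex.I) := by
      refine Summable.of_norm (h1s.congr fun h => ?_)
      rw [norm_mul, Complex.norm_exp_ofReal_mul_I, mul_one, Complex.norm_real, Real.norm_eq_abs,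
        abs_of_nonneg (Finset.prod_nonneg fun x _ => (hS x).nonneg _)]
    have h5 := congrArg Complex.re h3
    rw [Complex.re_tsum hsm, Complex.ofReal_re] at h5
    have h6 : ∀ h : V → ℤ, (((∏ x, S x (h x) : ℝ) : ℂ) *
        Complex.exp (((ip φ h : ℝ) : ℂ) * Complex.I)).re = (∏ x, S x (h x)) * Real.cos (ip φ h) := by
      intro h
      rw [Complex.re_ofReal_mul, Complex.exp_ofReal_mul_I_re]
    simp only [h6] at h5
    rw [h5]
    exact Finset.prod_nonneg fun x _ => (hS x).pos _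

open Classical in
/-- the height is zero -/
lemma PD1.zero : PD1 fun n : ℤ => if n = 0 then 1 else 0 := by
  refine ⟨fun n => by split_ifs <;> norm_num, fun n => by simp, ?_, fun φ => ?_⟩
  · exact (hasSum_ite_eq (0 : ℤ) (1 : ℝ)).summable
  · refine tsum_nonneg fun n => ?_
    split_ifs with h
    · subst h; simp
    · simp

lemma summable_gauss {m : ℝ} (hm : 0 < m) :
    Summable fun n : ℤ => Real.exp (-(m / 2) * (n : ℝ) ^ 2) := by
  have h1 : Summable fun n : ℕ => Real.exp (-(m / 2)) ^ n :=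
    summable_geometric_of_lt_one (Real.exp_pos _).le (by rw [Real.exp_lt_one_iff]; linarith)
  have h2 : Summable fun n : ℕ => Real.exp (-(m / 2) * (n : ℝ) ^ 2) := by
    refine Summable.of_nonneg_of_le (fun n => (Real.exp_pos _).le) (fun n => ?_) h1
    rw [← Real.exp_nat_mul]
    refine Real.exp_le_exp.2 ?_
    have h3 : (n : ℝ) ≤ (n : ℝ) ^ 2 := by
      rcases Nat.eq_zero_or_pos n with h | h
      · subst h; simp
      · have : (1 : ℝ) ≤ n := by exact_mod_cast h
        nlinarith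
    nlinarith
  refine Summable.of_nat_of_neg ?_ ?_
  · simpa using h2
  · simpa using h2

/-- Gaussian mass -/
lemma PD1.gauss {m : ℝ} (hm : 0 < m) : PD1 fun n : ℤ => Real.exp (-(m / 2) * (n : ℝ) ^ 2) := by
  have hpi := Real.pi_pos
  set a : ℝ := m / (2 * Real.pi) with ha
  have ha0 : 0 < a := by positivity
  have hs := summable_gauss hm
  refine ⟨fun n => (Real.exp_pos _).le, fun n => by simp, hs, fun φ => ?_⟩
  set b : ℂ := Complex.I * ((φ / (2 * Real.pi) : ℝ) : ℂ) with hb
  have h1 := Complex.tsum_exp_neg_quadratic (a := (a : ℂ)) (by simpa using ha0) b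
  have e1 : ∀ n : ℤ, Complex.exp (-Real.pi * a * (n : ℂ) ^ 2 + 2 * Real.pi * b * n) =
      ((Real.exp (-(m / 2) * (n : ℝ) ^ 2) : ℝ) : ℂ) * Complex.exp (((φ * n : ℝ) : ℂ) * Complex.I) := by
    intro n
    rw [Complex.ofReal_exp, ← Complex.exp_add, ha, hb]
    congr 1
    have hpc : (Real.pi : ℂ) ≠ 0 := by exact_mod_cast hpi.ne'
    push_cast
    field_simp
  have e2 : ∀ n : ℤ, Complex.exp (-Real.pi / a * ((n : ℂ) + Complex.I * b) ^ 2) =
      ((Real.exp (-Real.pi / a * ((n : ℝ) - φ / (2 * Real.pi)) ^ 2) : ℝ) : ℂ) := by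
    intro n
    rw [Complex.ofReal_exp, hb, ← mul_assoc, Complex.I_mul_I]
    congr 1
    push_cast
    ring
  have e3 : (1 : ℂ) / (a : ℂ) ^ (1 / 2 : ℂ) = ((1 / a ^ (1 / 2 : ℝ) : ℝ) : ℂ) := by
    rw [Complex.ofReal_div 1, Complex.ofReal_cpow ha0.le]
    push_cast
    rfl
  rw [tsum_congr e1, tsum_congr e2, e3, ← Complex.ofReal_tsum, ← Complex.ofReal_mul] at h1
  have hsm : Summable fun n : ℤ => ((Real.exp (-(m / 2) * (n : ℝ) ^ 2) : ℝ) : ℂ) *
      Complex.exp (((φ * n : ℝ) : ℂ) * Complex.I) := by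
    refine Summable.of_norm (hs.congr fun n => ?_)
    rw [norm_mul, Complex.norm_exp_ofReal_mul_I, mul_one, Complex.norm_real, Real.norm_eq_abs,
      abs_of_pos (Real.exp_pos _)]
  have h2 := congrArg Complex.re h1
  rw [Complex.re_tsum hsm, Complex.ofReal_re] at h2
  have h3 : ∀ n : ℤ, (((Real.exp (-(m / 2) * (n : ℝ) ^ 2) : ℝ) : ℂ) *
      Complex.exp (((φ * n : ℝ) : ℂ) * Complex.I)).re =
      Real.exp (-(m / 2) * (n : ℝ) ^ 2) * Real.cos (φ * n) := by
    intro n
    rw [Complex.re_ofReal_mul, Complex.exp_ofReal_mul_I_re]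
  simp only [h3] at h2
  rw [h2]
  exact mul_nonneg (by positivity) (tsum_nonneg fun n => (Real.exp_pos _).le)

open Classical in
/-- masses `m` off `X` and height `0` on `X` -/
noncomputable def mass (X : Set V) (m : V → ℝ) (h : V → ℤ) : ℝ :=
  ∏ x, if x ∈ X then (if h x = 0 then 1 else 0) else Real.exp (-(m x / 2) * (h x : ℝ) ^ 2)

theorem PD.mass {X : Set V} {m : V → ℝ} (hm : ∀ x, x ∉ X → 0 < m x) : PD (mass X m) := by
  classical
  have h := PD.prod (S := fun x n => if x ∈ X then (if n = 0 then 1 else 0)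
    else Real.exp (-(m x / 2) * (n : ℝ) ^ 2)) fun x => by
      by_cases hx : x ∈ X
      · simp only [if_pos hx]
        exact PD1.zero
      · simp only [if_neg hx]
        exact PD1.gauss (hm x hx)
  exact h

lemma mass_zero {X : Set V} {m : V → ℝ} {h : V → ℤ} (hh : TM.H129.mass X m h ≠ 0) :
    ∀ x ∈ X, h x = 0 := by
  classical
  intro x hx
  by_contra h0
  apply hh
  unfold TM.H129.mass
  refine Finset.prod_eq_zero (Finset.mem_univ x) ?_
  rw [if_pos hx, if_neg h0]

/-- `exp(-v x²/2)` is the Gaussian mean of `cos (t x)` -/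
lemma gauss_cos (v : NNReal) (x : ℝ) :
    ∫ t, Real.cos (t * x) ∂(ProbabilityTheory.gaussianReal 0 v) = Real.exp (-(v * x ^ 2 / 2)) := by
  have h1 := ProbabilityTheory.charFun_gaussianReal (μ := 0) (v := v) x
  rw [charFun_apply_real] at h1
  have h2 : Integrable (fun t : ℝ => Complex.exp (x * t * Complex.I))
      (ProbabilityTheory.gaussianReal 0 v) := by
    refine Integrable.of_bound (C := 1) (by fun_prop) (Eventually.of_forall fun t => ?_)
    have : (x * t * Complex.I : ℂ) = ((x * t : ℝ) : ℂ) * Complex.I := by push_cast; ring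
    rw [this, Complex.norm_exp_ofReal_mul_I]
  have h3 := congrArg Complex.re h1
  have h4 : (∫ t : ℝ, Complex.exp (x * t * Complex.I) ∂(ProbabilityTheory.gaussianReal 0 v)).re =
      ∫ t : ℝ, (Complex.exp (x * t * Complex.I)).re ∂(ProbabilityTheory.gaussianReal 0 v) :=
    (integral_re h2).symm
  rw [h4] at h3
  have h5 : ∀ t : ℝ, (Complex.exp (x * t * Complex.I)).re = Real.cos (t * x) := by
    intro t
    have : (x * t * Complex.I : ℂ) = ((t * x : ℝ) : ℂ) * Complex.I := by push_cast; ring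
    rw [this, Complex.exp_ofReal_mul_I_re]
  simp only [h5] at h3
  rw [h3]
  have h6 : (x * (0 : ℝ) * Complex.I - v * x ^ 2 / 2 : ℂ) = ((-(v * x ^ 2 / 2) : ℝ) : ℂ) := by
    push_cast; ring
  rw [h6, ← Complex.ofReal_exp, Complex.ofReal_re]

/-- **closure under Gaussian factors** (positive semidefinite mass forms are sums of squares) -/
theorem PD.mul_gauss {M : (V → ℤ) → ℝ} (hM : PD M) (ρ : V → ℝ) {v : ℝ} (hv : 0 ≤ v) :
    PD fun h => M h * Real.exp (-(v / 2) * ip ρ h ^ 2) := by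
  have h1 : ∀ h, Real.exp (-(v / 2) * ip ρ h ^ 2) ≤ 1 := fun h =>
    Real.exp_le_one_iff.2 (by nlinarith [sq_nonneg (ip ρ h)])
  have hs : Summable fun h => M h * Real.exp (-(v / 2) * ip ρ h ^ 2) :=
    Summable.of_nonneg_of_le (fun h => mul_nonneg (hM.nonneg h) (Real.exp_pos _).le)
      (fun h => mul_le_of_le_one_right (hM.nonneg h) (h1 h)) hM.summ
  refine ⟨fun h => mul_nonneg (hM.nonneg h) (Real.exp_pos _).le, fun h => ?_, hs, fun φ => ?_⟩
  · rw [hM.even, ip_neg, neg_sq]
  · -- mixture of cosines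
    set γ := ProbabilityTheory.gaussianReal 0 (Real.toNNReal v) with hγ
    set F : (V → ℤ) → ℝ → ℝ := fun h t => M h * Real.cos (t * ip ρ h) * Real.cos (ip φ h) with hF
    have hFb : ∀ h t, ‖F h t‖ ≤ M h := by
      intro h t
      rw [hF]
      simp only
      rw [Real.norm_eq_abs, abs_mul, abs_mul, abs_of_nonneg (hM.nonneg h), mul_assoc]
      refine mul_le_of_le_one_right (hM.nonneg h) ?_
      exact mul_le_one₀ (Real.abs_cos_le_one _) (abs_nonneg _) (Real.abs_cos_le_one _)
    have hFi : ∀ h, Integrable (F h) γ := fun h =>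
      Integrable.of_bound (C := M h) (by
        rw [hF]
        exact (by fun_prop : Continuous fun t : ℝ =>
          M h * Real.cos (t * ip ρ h) * Real.cos (ip φ h)).aestronglyMeasurable)
        (Eventually.of_forall (hFb h))
    have hFs : Summable fun h => ∫ t, ‖F h t‖ ∂γ := by
      refine Summable.of_nonneg_of_le (fun h => integral_nonneg fun t => norm_nonneg _)
        (fun h => ?_) hM.summ
      calc ∫ t, ‖F h t‖ ∂γ ≤ ∫ _t, M h ∂γ := integral_mono (hFi h).norm (integrable_const _) (hFb h)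
        _ = M h := by simp
    have hmain := hasSum_integral_of_summable_integral_norm hFi hFs
    have e1 : ∀ h, ∫ t, F h t ∂γ = M h * Real.exp (-(v / 2) * ip ρ h ^ 2) * Real.cos (ip φ h) := by
      intro h
      rw [hF]
      simp only
      rw [integral_mul_const, integral_const_mul, gauss_cos, Real.coe_toNNReal v hv]
      congr 3
      ring
    simp only [e1] at hmain
    rw [hmain.tsum_eq]
    refine integral_nonneg fun t => ?_
    show 0 ≤ ∑' h, F h t
    have e2 : ∀ h, F h t = (M h * Real.cos (ip (fun x => φ x + t * ρ x) h) +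
        M h * Real.cos (ip (fun x => φ x - t * ρ x) h)) / 2 := by
      intro h
      have e3 : ip (fun x => φ x + t * ρ x) h = ip φ h + t * ip ρ h := by
        unfold ip
        rw [Finset.mul_sum, ← Finset.sum_add_distrib]
        exact Finset.sum_congr rfl fun x _ => by ring
      have e4 : ip (fun x => φ x - t * ρ x) h = ip φ h - t * ip ρ h := by
        unfold ip
        rw [Finset.mul_sum, ← Finset.sum_sub_distrib]
        exact Finset.sum_congr rfl fun x _ => by ring
      rw [hF, e3, e4, Real.cos_add, Real.cos_sub]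
      ring
    have hsc : ∀ ψ : V → ℝ, Summable fun h => M h * Real.cos (ip ψ h) := fun ψ => by
      refine (Summable.of_nonneg_of_le (fun h => abs_nonneg _) (fun h => ?_) hM.summ).of_abs
      rw [abs_mul, abs_of_nonneg (hM.nonneg h)]
      exact mul_le_of_le_one_right (hM.nonneg h) (Real.abs_cos_le_one _)
    rw [tsum_congr e2, tsum_div_const, (hsc _).tsum_add (hsc _)]
    have := hM.pos (fun x => φ x + t * ρ x)
    have := hM.pos (fun x => φ x - t * ρ x)
    linarith

end Vale.Agent.P159.TM.H129
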